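import Mathlib

/-!
Bernoulli convolutions: the law of `∑ ± lam^n` and the product formula for its cosine transform.
-/

namespace Vale.Agent.P105

open MeasureTheory Filter Topology

noncomputable section

/-- the fair coin -/
def fair : Measure Bool := (PMF.uniformOfFintype Bool).toMeasure

instance : IsProbabilityMeasure fair := by unfold fair; infer_instance

/-- the law of a sequence of independent fair coins -/
def coins : Measure (ℕ → Bool) := Measure.infinitePi fun _ : ℕ => fair

instance : IsProbabilityMeasure coins := by unfold coins; infer_instance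

def sgn (b : Bool) : ℝ := if b then 1 else -1

/-- `∑ ε_n lam^n` -/
def Ysum (lam : ℝ) (ω : ℕ → Bool) : ℝ := ∑' n, sgn (ω n) * lam ^ n

/-- the Bernoulli convolution with parameter `lam` -/
def bern (lam : ℝ) : Measure ℝ := coins.map (Ysum lam)

lemma abs_sgn (b : Bool) : |sgn b| = 1 := by cases b <;> simp [sgn]

lemma summable_series {lam : ℝ} (h0 : 0 ≤ lam) (h1 : lam < 1) (ω : ℕ → Bool) :
    Summable fun n => sgn (ω n) * lam ^ n := by
  apply Summable.of_norm_bounded (summable_geometric_of_lt_one h0 h1)
  intro n
  simp [Real.norm_eq_abs, abs_sgn, abs_of_nonneg h0]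

lemma measurable_partial (lam : ℝ) (M : ℕ) :
    Measurable fun ω : ℕ → Bool => ∑ n ∈ Finset.range M, sgn (ω n) * lam ^ n := by
  apply Finset.measurable_sum
  intro n _
  exact ((measurable_of_finite sgn).comp (measurable_pi_apply n)).mul_const _

lemma measurable_Ysum {lam : ℝ} (h0 : 0 ≤ lam) (h1 : lam < 1) : Measurable (Ysum lam) :=
  measurable_of_tendsto_metrizable (measurable_partial lam)
    (tendsto_pi_nhds.2 fun ω => (summable_series h0 h1 ω).hasSum.tendsto_sum_nat)

lemma isProbability_bern {lam : ℝ} (h0 : 0 ≤ lam) (h1 : lam < 1) :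
    IsProbabilityMeasure (bern lam) :=
  Measure.isProbabilityMeasure_map (measurable_Ysum h0 h1).aemeasurable

lemma integral_char_coin (c : ℝ) :
    ∫ b, Complex.exp (Complex.I * ((c * sgn b : ℝ) : ℂ)) ∂fair = (Real.cos c : ℂ) := by
  rw [fair, PMF.integral_eq_sum]
  rw [Fintype.sum_bool]
  simp [sgn, PMF.uniformOfFintype_apply]
  rw [Complex.cos]
  ring_nf

lemma integral_cos_partial (lam t : ℝ) (M : ℕ) :
    ∫ ω, Real.cos (t * ∑ n ∈ Finset.range M, sgn (ω n) * lam ^ n) ∂coins =
      ∏ n ∈ Finset.range M, Real.cos (t * lam ^ n) := by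
  set f : (ℕ → Bool) → ℂ := fun ω =>
    Complex.exp (Complex.I * ((t * ∑ n ∈ Finset.range M, sgn (ω n) * lam ^ n : ℝ) : ℂ)) with hf
  have hfin : ∫ ω, f ω ∂coins = ∏ n ∈ Finset.range M, (Real.cos (t * lam ^ n) : ℂ) := by
    set g : ((i : Finset.range M) → Bool) → ℂ := fun x =>
      ∏ i : Finset.range M,
        Complex.exp (Complex.I * ((t * lam ^ (i:ℕ) * sgn (x i) : ℝ) : ℂ)) with hg
    have e : f = fun ω => g ((Finset.range M).restrict ω) := by
      funext ω
      rw [hf, hg]
      simp only [Finset.restrict]
      rw [← Complex.exp_sum, ← Finset.mul_sum]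
      congr 2
      rw [Finset.mul_sum, ← Complex.ofReal_sum, ← Finset.sum_coe_sort (Finset.range M)]
      congr 1
      apply Finset.sum_congr rfl
      intro i _
      ring
    rw [e, coins, ← integral_map (Finset.measurable_restrict _).aemeasurable
      (measurable_of_finite g).aestronglyMeasurable, Measure.infinitePi_map_restrict, hg]
    refine (integral_fintype_prod_eq_prod (μ := fun _ : Finset.range M => fair)
      (fun (i : Finset.range M) (b : Bool) =>
        Complex.exp (Complex.I * ((t * lam ^ (i:ℕ) * sgn b : ℝ) : ℂ)))).trans ?_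
    rw [← Finset.prod_coe_sort (Finset.range M)]
    exact Finset.prod_congr rfl fun i _ => integral_char_coin _
  have hint : Integrable f coins := by
    refine ((integrable_const (1:ℝ)).mono' ?_ (Eventually.of_forall fun ω => ?_))
    · exact ((Complex.continuous_exp.comp (continuous_const.mul Complex.continuous_ofReal)).measurable.comp
        ((measurable_partial lam M).const_mul t)).aestronglyMeasurable
    · rw [hf, Complex.norm_exp_I_mul_ofReal]
  have h := integral_re (𝕜 := ℂ) hint
  have hre : ∀ ω, RCLike.re (f ω) =
      Real.cos (t * ∑ n ∈ Finset.range M, sgn (ω n) * lam ^ n) := by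
    intro ω
    simp only [hf, RCLike.re_to_complex]
    rw [mul_comm Complex.I, Complex.exp_ofReal_mul_I_re]
  simp_rw [hre] at h
  rw [h, hfin, ← Complex.ofReal_prod]
  exact Complex.ofReal_re _

lemma tendsto_cos_transform {lam : ℝ} (h0 : 0 ≤ lam) (h1 : lam < 1) (t : ℝ) :
    Tendsto (fun M => ∏ n ∈ Finset.range M, Real.cos (t * lam ^ n)) atTop
      (𝓝 (∫ x, Real.cos (t * x) ∂bern lam)) := by
  rw [bern, integral_map (measurable_Ysum h0 h1).aemeasurable
    (by fun_prop : Measurable fun x => Real.cos (t * x)).aestronglyMeasurable]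
  simp_rw [← integral_cos_partial lam t]
  apply tendsto_integral_of_dominated_convergence (fun _ => 1)
  · intro M
    exact (Real.continuous_cos.measurable.comp
      ((measurable_partial lam M).const_mul t)).aestronglyMeasurable
  · exact integrable_const _
  · intro M
    exact Eventually.of_forall fun ω => by simpa using Real.abs_cos_le_one _
  · refine Eventually.of_forall fun ω => ?_
    exact (Real.continuous_cos.tendsto _).comp
      (((summable_series h0 h1 ω).hasSum.tendsto_sum_nat).const_mul t)

end

end Vale.Agent.P105
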