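import Vale.Agent.P105.Prod
import Vale.Agent.P105.Bern

/-!
Frequencies at which the cosine transform of a Bernoulli convolution is close to a fixed window
product, and their pairwise correlations.
-/

namespace Vale.Agent.P105

open MeasureTheory Filter Topology

noncomputable section

/-- A frequency datum: `b^j a` is close to integers outside the window `[lo, hi]`, the cosines in
the window are bounded below by `g`, and the tolerance `c` is tiny compared with the square of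
the window product. -/
structure Datum (b g ε : ℝ) where
  a : ℝ
  lo : ℤ
  hi : ℤ
  c : ℝ
  one_le_a : 1 ≤ a
  c_pos : 0 < c
  c_le : c ≤ ε
  lo_le : lo ≤ 0
  hi_ge : 0 ≤ hi
  small : ∀ j, hi < j → Near (a * b ^ j) (3 * c)
  tail : ∀ j, j < lo → a * b ^ j ≤ c * b ^ (j - lo)
  lower : ∀ j ∈ Finset.Icc lo hi, g ≤ |cs (a * b ^ j)|
  hi_big : 1 / c ≤ b ^ hi
  cond : c * ((hi:ℝ) - lo + 2) ≤ ε * (∏ j ∈ Finset.Icc lo hi, cs (a * b ^ j)) ^ 2

/-- the window product -/
def Datum.v {b g ε : ℝ} (D : Datum b g ε) : ℝ :=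
  ∏ j ∈ Finset.Icc D.lo D.hi, cs (D.a * b ^ j)

/-- the frequency `2π a b^k` -/
def Datum.t {b g ε : ℝ} (D : Datum b g ε) (k : ℤ) : ℝ := 2 * Real.pi * D.a * b ^ k

lemma transform_near {b : ℝ} (hb : 1 < b) (t : ℝ) (F F₀ e : ℤ → ℝ) (lo k : ℤ) (hk : lo ≤ k)
    (ht : ∀ n : ℕ, Real.cos (t * b⁻¹ ^ n) = F (k - n))
    (h : ∀ j ∈ Finset.Icc lo k, |F j - F₀ j| ≤ e j * |F₀ j|)
    (he : ∀ j ∈ Finset.Icc lo k, 0 ≤ e j) {E τ : ℝ}
    (hE : ∑ j ∈ Finset.Icc lo k, e j ≤ E) (hτ : 0 ≤ τ)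
    (htail : ∀ n : ℕ, |F (lo - 1 - n) - 1| ≤ τ * b⁻¹ ^ n) :
    |∫ x, Real.cos (t * x) ∂bern b⁻¹ - ∏ j ∈ Finset.Icc lo k, F₀ j| ≤
      (Real.exp (E + τ / (1 - b⁻¹)) - 1) * |∏ j ∈ Finset.Icc lo k, F₀ j| := by
  have hb0 : 0 ≤ b⁻¹ := by positivity
  have hb1 : b⁻¹ < 1 := inv_lt_one_of_one_lt₀ hb
  have hlim := tendsto_cos_transform hb0 hb1 t
  simp_rw [ht] at hlim
  refine le_of_tendsto ((hlim.sub_const _).abs) ?_
  set m : ℕ := (k - lo + 1).toNat with hm
  refine eventually_atTop.2 ⟨m, fun M hM => ?_⟩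
  obtain ⟨M', rfl⟩ := Nat.exists_eq_add_of_le hM
  rw [Finset.prod_range_add, prod_range_sub]
  have e1 : k - (m:ℤ) + 1 = lo := by omega
  rw [e1, Real.exp_add]
  have hA := prod_dev _ F F₀ e h he
  refine dev_mul (hA.trans ?_) ?_
  · gcongr
  · have h2 := prod_dev (Finset.range M') (fun n => F (k - ((m + n : ℕ) : ℤ))) (fun _ => 1)
      (fun n => τ * b⁻¹ ^ n) (fun n _ => ?_) (fun n _ => by positivity)
    · simp only [Finset.prod_const_one, abs_one, mul_one] at h2
      refine h2.trans ?_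
      gcongr
      rw [← Finset.mul_sum, div_eq_mul_inv]
      gcongr
      rw [← tsum_geometric_of_lt_one hb0 hb1]
      exact (summable_geometric_of_lt_one hb0 hb1).sum_le_tsum _ (fun i _ => by positivity)
    · have e2 : k - ((m + n : ℕ) : ℤ) = lo - 1 - n := by push_cast; omega
      simp only [e2, abs_one, mul_one]
      exact htail n

variable {b g ε : ℝ} (D : Datum b g ε)

lemma Datum.tail_abs (hb : 1 < b) (j : ℤ) (hj : j < D.lo) : |D.a * b ^ j| ≤ D.c := by
  have hpos : 0 < b ^ j := zpow_pos (by linarith) _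
  rw [abs_of_nonneg (mul_nonneg (by linarith [D.one_le_a]) hpos.le)]
  refine (D.tail j hj).trans ?_
  have : b ^ (j - D.lo) ≤ b ^ (0:ℤ) := zpow_le_zpow_right₀ hb.le (by omega)
  rw [zpow_zero] at this
  nlinarith [D.c_pos]

lemma Datum.tail_pow (hb : 1 < b) (n : ℕ) :
    D.a * b ^ (D.lo - 1 - n) ≤ D.c * b⁻¹ ^ n := by
  refine (D.tail _ (by omega)).trans ?_
  apply mul_le_mul_of_nonneg_left _ D.c_pos.le
  rw [inv_pow, ← zpow_natCast, ← zpow_neg]
  exact zpow_le_zpow_right₀ hb.le (by omega)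

lemma cos_freq (hb : b ≠ 0) (x : ℝ) (k : ℤ) (n : ℕ) :
    2 * Real.pi * x * b ^ k * b⁻¹ ^ n = 2 * Real.pi * (x * b ^ (k - n)) := by
  rw [zpow_sub₀ hb, zpow_natCast, inv_pow]; ring

lemma Datum.mean (hb : 1 < b) (k : ℤ) (hk : D.hi ≤ k) :
    |∫ x, Real.cos (D.t k * x) ∂bern b⁻¹ - D.v| ≤
      (Real.exp (180 * D.c ^ 2 * ((k:ℝ) - D.lo + 1) + 20 * D.c ^ 2 / (1 - b⁻¹)) - 1) * |D.v| := by
  have hlk : D.lo ≤ k := by have := D.lo_le; have := D.hi_ge; omega
  have hv : D.v = ∏ j ∈ Finset.Icc D.lo k,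
      (if j ∈ Finset.Icc D.lo D.hi then cs (D.a * b ^ j) else 1) :=
    (prod_window (f := fun j => cs (D.a * b ^ j)) _ le_rfl hk).symm
  rw [hv]
  refine transform_near hb _ (fun j => cs (D.a * b ^ j)) _ (fun _ => 180 * D.c ^ 2) D.lo k hlk
    ?_ ?_ (fun _ _ => by positivity) ?_ (by positivity) ?_
  · intro n; rw [Datum.t, cos_freq (by linarith)]; rfl
  · intro j hj
    try dsimp only
    split_ifs with hW
    · simp only [sub_self, abs_zero]; positivity
    · rw [abs_one, mul_one]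
      simp only [Finset.mem_Icc] at hj hW
      refine (D.small j (by omega)).cs_one.trans ?_
      nlinarith
  · rw [Finset.sum_const, nsmul_eq_mul, Int.card_Icc]
    have : ((k + 1 - D.lo).toNat : ℝ) = (k:ℝ) - D.lo + 1 := by
      rw [← Int.cast_natCast (R := ℝ), Int.toNat_of_nonneg (by omega)]; push_cast; ring
    rw [this]; ring_nf; rfl
  · intro n
    have h1 := D.tail_pow hb n
    have hpos : 0 ≤ D.a * b ^ (D.lo - 1 - n) :=
      mul_nonneg (by linarith [D.one_le_a]) (zpow_nonneg (by linarith) _)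
    refine (near_of_abs (η := D.c * b⁻¹ ^ n) (by rwa [abs_of_nonneg hpos])).cs_one.trans ?_
    have hx0 : 0 ≤ b⁻¹ ^ n := by positivity
    have hx1 : b⁻¹ ^ n ≤ 1 := pow_le_one₀ (by positivity) (inv_le_one_of_one_le₀ hb.le)
    calc 20 * (D.c * b⁻¹ ^ n) ^ 2 = 20 * D.c ^ 2 * (b⁻¹ ^ n * b⁻¹ ^ n) := by ring
      _ ≤ 20 * D.c ^ 2 * (b⁻¹ ^ n * 1) := by gcongr
      _ = 20 * D.c ^ 2 * b⁻¹ ^ n := by ring

lemma Datum.pair (hb : 1 < b) (hg : 0 < g) (k d : ℤ) (hd : D.hi - D.lo + 1 ≤ d)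
    (hk : D.hi + d ≤ k) (σ : ℝ) (hσ : σ = 1 ∨ σ = -1) :
    |∫ x, Real.cos ((D.t k + σ * D.t (k - d)) * x) ∂bern b⁻¹ - D.v ^ 2| ≤
      (Real.exp (42 * D.c / g * ((D.hi:ℝ) - D.lo + 1) + 720 * D.c ^ 2 * ((k:ℝ) - D.lo + 1)
        + 80 * D.c ^ 2 / (1 - b⁻¹)) - 1) * D.v ^ 2 := by
  have hd0 : 0 < d := by have := D.lo_le; have := D.hi_ge; omega
  have hlk : D.lo ≤ k := by have := D.lo_le; have := D.hi_ge; omega
  set f : ℤ → ℝ := fun j => cs (D.a * b ^ j) with hf
  set F₀ : ℤ → ℝ := fun j => (if j ∈ Finset.Icc D.lo D.hi then f j else 1) *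
    (if j ∈ Finset.Icc (D.lo + d) (D.hi + d) then f (j - d) else 1) with hF₀
  have hv : D.v ^ 2 = ∏ j ∈ Finset.Icc D.lo k, F₀ j := by
    rw [hF₀, Finset.prod_mul_distrib, prod_window (f := f) _ le_rfl (by omega),
      prod_window (f := fun j => f (j - d)) _ (by omega) hk, prod_Icc_shift, sq]
    rfl
  have hv' : D.v ^ 2 = |∏ j ∈ Finset.Icc D.lo k, F₀ j| := by
    rw [← hv, abs_of_nonneg (sq_nonneg _)]
  set w : ℝ := 21 * D.c / g with hw
  have hw0 : 0 ≤ w := by rw [hw]; have := D.c_pos; positivity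
  set e : ℤ → ℝ := fun j => (if j ∈ Finset.Icc D.lo D.hi then w else 0) +
    (if j ∈ Finset.Icc (D.lo + d) (D.hi + d) then w else 0) + 720 * D.c ^ 2 with he
  have hnd : ∀ j, Near (D.a * b ^ j) (3 * D.c) ∨ j ∈ Finset.Icc D.lo D.hi := by
    intro j
    rcases lt_trichotomy j D.lo with h | h | h
    · left
      exact (near_of_abs (D.tail_abs hb j h)).mono (by linarith [D.c_pos])
    · right; simp only [Finset.mem_Icc]; have := D.lo_le; have := D.hi_ge; omega
    · by_cases h' : j ≤ D.hi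
      · right; simp only [Finset.mem_Icc]; omega
      · left; exact D.small j (by omega)
  have sig : ∀ {x η : ℝ}, Near x η → Near (σ * x) η := by
    intro x η hx
    rcases hσ with rfl | rfl
    · simpa using hx
    · simpa using hx.neg
  have csσ : ∀ x, cs (σ * x) = cs x := by
    intro x
    rcases hσ with rfl | rfl
    · simp
    · simp [cs_neg]
  rw [hv]
  have hkey := transform_near hb (D.t k + σ * D.t (k - d))
    (fun j => cs (D.a * b ^ j + σ * (D.a * b ^ (j - d)))) F₀ e D.lo k hlk ?_ ?_ ?_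
    (E := 42 * D.c / g * ((D.hi:ℝ) - D.lo + 1) + 720 * D.c ^ 2 * ((k:ℝ) - D.lo + 1))
    (τ := 80 * D.c ^ 2) ?_ (by positivity) ?_
  · rw [← hv'] at hkey
    rw [← hv]
    rw [← hv] at hkey
    exact hkey
  · intro n
    simp only [Datum.t, cs, add_mul, mul_assoc σ]
    rw [cos_freq (by linarith), cos_freq (by linarith)]
    congr 1
    rw [show k - d - (n:ℤ) = k - n - d by ring]
    ring
  · intro j hj
    simp only [Finset.mem_Icc] at hj
    rw [hF₀, he]
    dsimp only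
    by_cases h1 : j ∈ Finset.Icc D.lo D.hi
    · have h2 : j ∉ Finset.Icc (D.lo + d) (D.hi + d) := by
        simp only [Finset.mem_Icc] at h1 ⊢; omega
      rw [if_pos h1, if_neg h2, if_pos h1, if_neg h2, mul_one, add_zero]
      have hn : Near (σ * (D.a * b ^ (j - d))) D.c := by
        refine sig (near_of_abs (D.tail_abs hb _ ?_))
        simp only [Finset.mem_Icc] at h1; omega
      refine (hn.cs_diff _).trans ?_
      have hl := D.lower j h1
      have h3 : 21 * D.c ≤ w * |f j| := by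
        calc 21 * D.c = w * g := by rw [hw]; field_simp
          _ ≤ w * |f j| := mul_le_mul_of_nonneg_left hl hw0
      have hc := D.c_pos
      nlinarith [abs_nonneg (f j), sq_nonneg D.c]
    · by_cases h2 : j ∈ Finset.Icc (D.lo + d) (D.hi + d)
      · rw [if_neg h1, if_pos h2, if_neg h1, if_pos h2, one_mul, zero_add]
        have hn : Near (D.a * b ^ j) (3 * D.c) := (hnd j).resolve_right h1
        rw [add_comm (D.a * b ^ j)]
        have := hn.cs_diff (σ * (D.a * b ^ (j - d)))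
        rw [csσ] at this
        refine this.trans ?_
        have hl := D.lower (j - d) (by simp only [Finset.mem_Icc] at h2 ⊢; omega)
        have h3 : 21 * D.c ≤ w * |f (j - d)| := by
          calc 21 * D.c = w * g := by rw [hw]; field_simp
            _ ≤ w * |f (j - d)| := mul_le_mul_of_nonneg_left hl hw0
        nlinarith [abs_nonneg (f (j - d)), sq_nonneg D.c]
      · rw [if_neg h1, if_neg h2, if_neg h1, if_neg h2]
        simp only [mul_one, abs_one, add_zero, zero_add]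
        have hn : Near (D.a * b ^ j) (3 * D.c) := (hnd j).resolve_right h1
        have hn' : Near (D.a * b ^ (j - d)) (3 * D.c) := by
          refine (hnd (j - d)).resolve_right ?_
          simp only [Finset.mem_Icc] at h2 ⊢; omega
        refine (hn.add (sig hn')).cs_one.trans ?_
        nlinarith
  · intro j _
    rw [he]; dsimp only
    split_ifs <;> positivity
  · rw [he, Finset.sum_add_distrib, Finset.sum_add_distrib, Finset.sum_const, nsmul_eq_mul]
    have c1 := sum_window_le hw0 (Finset.Icc D.lo k) D.lo D.hi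
    have c2 := sum_window_le hw0 (Finset.Icc D.lo k) (D.lo + d) (D.hi + d)
    have card : ∀ l h : ℤ, l ≤ h + 1 → ((Finset.Icc l h).card : ℝ) = (h:ℝ) - l + 1 := by
      intro l h hlh
      rw [Int.card_Icc, ← Int.cast_natCast (R := ℝ), Int.toNat_of_nonneg (by omega)]
      push_cast; ring
    have := D.lo_le
    have := D.hi_ge
    rw [card _ _ (by omega)] at c1 c2
    rw [card _ _ (by omega)]
    have : 42 * D.c / g * ((D.hi:ℝ) - D.lo + 1) = 2 * (((D.hi:ℝ) - D.lo + 1) * w) := by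
      rw [hw]; ring
    rw [this]
    push_cast at c2
    linarith
  · intro n
    have h1 := D.tail_pow hb n
    have hx0 : 0 ≤ b⁻¹ ^ n := by positivity
    have hx1 : b⁻¹ ^ n ≤ 1 := pow_le_one₀ (by positivity) (inv_le_one_of_one_le₀ hb.le)
    have ha : 0 ≤ D.a := by linarith [D.one_le_a]
    have hp1 : 0 ≤ D.a * b ^ (D.lo - 1 - n) := mul_nonneg ha (zpow_nonneg (by linarith) _)
    have hp2 : 0 ≤ D.a * b ^ (D.lo - 1 - n - d) := mul_nonneg ha (zpow_nonneg (by linarith) _)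
    have h2 : D.a * b ^ (D.lo - 1 - n - d) ≤ D.c * b⁻¹ ^ n :=
      le_trans (mul_le_mul_of_nonneg_left (zpow_le_zpow_right₀ hb.le (by omega)) ha) h1
    have n1 : Near (D.a * b ^ (D.lo - 1 - n)) (D.c * b⁻¹ ^ n) :=
      near_of_abs (by rwa [abs_of_nonneg hp1])
    have n2 : Near (σ * (D.a * b ^ (D.lo - 1 - n - d))) (D.c * b⁻¹ ^ n) :=
      sig (near_of_abs (by rwa [abs_of_nonneg hp2]))
    refine (n1.add n2).cs_one.trans ?_
    calc 20 * (D.c * b⁻¹ ^ n + D.c * b⁻¹ ^ n) ^ 2 = 80 * D.c ^ 2 * (b⁻¹ ^ n * b⁻¹ ^ n) := by ring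
      _ ≤ 80 * D.c ^ 2 * (b⁻¹ ^ n * 1) := by gcongr
      _ = 80 * D.c ^ 2 * b⁻¹ ^ n := by ring

end

end Vale.Agent.P105
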