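import Mathlib

/-!
Elementary lemmas on `cos (2π x)` and on finite products close to a given product.
-/

namespace Vale.Agent.P105

noncomputable section

/-- `cos (2π x)` -/
def cs (x : ℝ) : ℝ := Real.cos (2 * Real.pi * x)

/-- `x` is within `η` of an integer -/
def Near (x η : ℝ) : Prop := ∃ p : ℤ, |x - p| ≤ η

lemma cs_add_int (x : ℝ) (p : ℤ) : cs (x + p) = cs x := by
  unfold cs
  rw [show 2 * Real.pi * (x + p) = 2 * Real.pi * x + p * (2 * Real.pi) by ring,
    Real.cos_add_int_mul_two_pi]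

lemma cs_neg (x : ℝ) : cs (-x) = cs x := by
  unfold cs; rw [mul_neg, Real.cos_neg]

lemma abs_cs_le (x : ℝ) : |cs x| ≤ 1 := Real.abs_cos_le_one _

lemma Near.mono {x η η' : ℝ} (h : Near x η) (hle : η ≤ η') : Near x η' := by
  obtain ⟨p, hp⟩ := h; exact ⟨p, hp.trans hle⟩

lemma Near.neg {x η : ℝ} (h : Near x η) : Near (-x) η := by
  obtain ⟨p, hp⟩ := h
  refine ⟨-p, ?_⟩
  rw [← abs_neg]; push_cast; ring_nf; ring_nf at hp; exact hp

lemma Near.add {x y η η' : ℝ} (h : Near x η) (h' : Near y η') : Near (x + y) (η + η') := by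
  obtain ⟨p, hp⟩ := h
  obtain ⟨q, hq⟩ := h'
  refine ⟨p + q, ?_⟩
  push_cast
  calc |x + y - (p + q)| = |(x - p) + (y - q)| := by ring_nf
    _ ≤ |x - p| + |y - q| := abs_add_le _ _
    _ ≤ η + η' := add_le_add hp hq

lemma near_of_abs {x η : ℝ} (h : |x| ≤ η) : Near x η := ⟨0, by simpa using h⟩

lemma Near.cs_diff {x η : ℝ} (h : Near x η) (y : ℝ) : |cs (y + x) - cs y| ≤ 7 * η := by
  obtain ⟨p, hp⟩ := h
  rw [show y + x = (y + (x - p)) + p by ring, cs_add_int]
  unfold cs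
  refine (Real.abs_cos_sub_cos_le _ _).trans ?_
  rw [← mul_sub, add_sub_cancel_left, abs_mul, abs_of_pos (by positivity : 0 < 2 * Real.pi)]
  exact mul_le_mul (by linarith [Real.pi_lt_d2]) hp (abs_nonneg _) (by norm_num)

lemma Near.cs_one {x η : ℝ} (h : Near x η) : |cs x - 1| ≤ 20 * η ^ 2 := by
  obtain ⟨p, hp⟩ := h
  rw [show x = (x - p) + p by ring, cs_add_int]
  have h1 := Real.one_sub_sq_div_two_le_cos (x := 2 * Real.pi * (x - p))
  have h2 := Real.cos_le_one (2 * Real.pi * (x - p))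
  have h3 : (x - p) ^ 2 ≤ η ^ 2 := by
    rw [← sq_abs]; exact pow_le_pow_left₀ (abs_nonneg _) hp 2
  have h4 : 2 * Real.pi ^ 2 ≤ 20 := by nlinarith [Real.pi_lt_d2, Real.pi_pos]
  unfold cs
  rw [abs_le]
  constructor
  · nlinarith [mul_le_mul h4 h3 (sq_nonneg _) (by norm_num : (0:ℝ) ≤ 20)]
  · nlinarith

/-- Weierstrass-type comparison of products. -/
lemma prod_dev {ι : Type*} (s : Finset ι) (F F₀ e : ι → ℝ)
    (h : ∀ i ∈ s, |F i - F₀ i| ≤ e i * |F₀ i|) (he : ∀ i ∈ s, 0 ≤ e i) :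
    |∏ i ∈ s, F i - ∏ i ∈ s, F₀ i| ≤
      (Real.exp (∑ i ∈ s, e i) - 1) * |∏ i ∈ s, F₀ i| := by
  classical
  induction s using Finset.induction_on with
  | empty => simp
  | insert i s hi ih =>
    specialize ih (fun j hj => h j (Finset.mem_insert_of_mem hj))
      (fun j hj => he j (Finset.mem_insert_of_mem hj))
    have h0 := h i (Finset.mem_insert_self i s)
    have he0 := he i (Finset.mem_insert_self i s)
    rw [Finset.prod_insert hi, Finset.prod_insert hi, Finset.sum_insert hi, abs_mul, Real.exp_add]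
    set P := ∏ j ∈ s, F j
    set P₀ := ∏ j ∈ s, F₀ j
    set E := Real.exp (∑ j ∈ s, e j)
    have hP : |P| ≤ E * |P₀| := by
      calc |P| = |(P - P₀) + P₀| := by ring_nf
        _ ≤ |P - P₀| + |P₀| := abs_add_le _ _
        _ ≤ E * |P₀| := by linarith
    have hexp : 1 + e i ≤ Real.exp (e i) := by linarith [Real.add_one_le_exp (e i)]
    have hE : 0 ≤ E := (Real.exp_pos _).le
    calc |F i * P - F₀ i * P₀| = |(F i - F₀ i) * P + F₀ i * (P - P₀)| := by ring_nf
      _ ≤ |F i - F₀ i| * |P| + |F₀ i| * |P - P₀| := by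
        refine (abs_add_le _ _).trans ?_; rw [abs_mul, abs_mul]
      _ ≤ e i * |F₀ i| * (E * |P₀|) + |F₀ i| * ((E - 1) * |P₀|) := by
        apply add_le_add
        · exact mul_le_mul h0 hP (abs_nonneg _) (mul_nonneg he0 (abs_nonneg _))
        · exact mul_le_mul_of_nonneg_left ih (abs_nonneg _)
      _ = ((1 + e i) * E - 1) * (|F₀ i| * |P₀|) := by ring
      _ ≤ (Real.exp (e i) * E - 1) * (|F₀ i| * |P₀|) := by
        apply mul_le_mul_of_nonneg_right _ (by positivity)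
        nlinarith

lemma dev_mul {a a₀ b x y : ℝ} (ha : |a - a₀| ≤ (x - 1) * |a₀|) (hb : |b - 1| ≤ y - 1) :
    |a * b - a₀| ≤ (x * y - 1) * |a₀| := by
  have h1 : |a| ≤ x * |a₀| := by
    calc |a| = |(a - a₀) + a₀| := by ring_nf
      _ ≤ |a - a₀| + |a₀| := abs_add_le _ _
      _ ≤ x * |a₀| := by linarith
  calc |a * b - a₀| = |a * (b - 1) + (a - a₀)| := by ring_nf
    _ ≤ |a| * |b - 1| + |a - a₀| := by refine (abs_add_le _ _).trans ?_; rw [abs_mul]
    _ ≤ x * |a₀| * (y - 1) + (x - 1) * |a₀| :=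
      add_le_add (mul_le_mul h1 hb (abs_nonneg _) ((abs_nonneg a).trans h1)) ha
    _ = (x * y - 1) * |a₀| := by ring

lemma prod_range_sub {F : ℤ → ℝ} (k : ℤ) (m : ℕ) :
    ∏ n ∈ Finset.range m, F (k - n) = ∏ j ∈ Finset.Icc (k - m + 1) k, F j := by
  induction m with
  | zero => simp
  | succ m ih =>
    rw [Finset.prod_range_succ, ih]
    have e : Finset.Icc (k - (m + 1 : ℕ) + 1) k = insert (k - m) (Finset.Icc (k - m + 1) k) := by
      ext j; simp only [Finset.mem_insert, Finset.mem_Icc]; push_cast; omega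
    rw [e, Finset.prod_insert (by simp), mul_comm]

lemma prod_window {f : ℤ → ℝ} {lo hi k : ℤ} (lo' : ℤ) (h1 : lo' ≤ lo) (h2 : hi ≤ k) :
    ∏ j ∈ Finset.Icc lo' k, (if j ∈ Finset.Icc lo hi then f j else 1) =
      ∏ j ∈ Finset.Icc lo hi, f j := by
  rw [Finset.prod_ite_mem, Finset.inter_eq_right.2]
  intro j hj
  simp only [Finset.mem_Icc] at hj ⊢
  omega

lemma prod_Icc_shift (f : ℤ → ℝ) (lo hi d : ℤ) :
    ∏ j ∈ Finset.Icc (lo + d) (hi + d), f (j - d) = ∏ j ∈ Finset.Icc lo hi, f j := by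
  rw [← Finset.map_add_right_Icc, Finset.prod_map]
  simp

lemma sum_window_le {w : ℝ} (hw : 0 ≤ w) (s : Finset ℤ) (lo hi : ℤ) :
    ∑ j ∈ s, (if j ∈ Finset.Icc lo hi then w else 0) ≤ (Finset.Icc lo hi).card * w := by
  rw [Finset.sum_ite_mem, Finset.sum_const, nsmul_eq_mul]
  gcongr
  exact Finset.inter_subset_right

end

end Vale.Agent.P105
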