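import Mathlib

/-!
The Salem number `β` (largest root of `x^4 - x^3 - x^2 - x + 1`) and the arithmetic facts used for
the singularity of the Bernoulli convolution with parameter `β⁻¹`.
-/

namespace Vale.Agent.P105

noncomputable section

def u : ℝ := (1 + √13) / 2
def u' : ℝ := (1 - √13) / 2
def β : ℝ := (u + √(u ^ 2 - 4)) / 2
def A : ℝ := 10 * u + 13
def B : ℝ := 10 * u' + 13
def α : ℝ := Real.arccos (u' / 2)
def z : ℂ := Complex.exp (Complex.I * α)

lemma sqrt13_bounds : 3.6055 < √(13:ℝ) ∧ √(13:ℝ) < 3.6056 := by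
  constructor
  · rw [Real.lt_sqrt (by norm_num)]; norm_num
  · rw [Real.sqrt_lt' (by norm_num)]; norm_num

lemma u_sq : u ^ 2 = u + 3 := by
  have h : √(13:ℝ) ^ 2 = 13 := Real.sq_sqrt (by norm_num)
  unfold u; nlinarith

lemma u'_sq : u' ^ 2 = u' + 3 := by
  have h : √(13:ℝ) ^ 2 = 13 := Real.sq_sqrt (by norm_num)
  unfold u'; nlinarith

lemma u_bounds : 2.302 < u ∧ u < 2.303 := by
  have h := sqrt13_bounds
  unfold u; constructor <;> linarith [h.1, h.2]

lemma u'_bounds : -1.303 < u' ∧ u' < -1.302 := by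
  have h := sqrt13_bounds
  unfold u'; constructor <;> linarith [h.1, h.2]

lemma A_bounds : 1 ≤ A ∧ A ≤ 37 := by
  have h := u_bounds
  unfold A; constructor <;> linarith [h.1, h.2]

lemma A_pos : 0 < A := by linarith [A_bounds.1]

lemma B_bounds : -0.03 < B ∧ B < -0.02 := by
  have h := u'_bounds
  unfold B; constructor <;> linarith [h.1, h.2]

lemma B_ne : B ≠ 0 := by linarith [B_bounds.2]

lemma beta_sq : β ^ 2 = u * β - 1 := by
  have h := u_bounds
  have h0 : (0:ℝ) ≤ u ^ 2 - 4 := by nlinarith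
  have hs := Real.sq_sqrt h0
  unfold β; nlinarith [hs]

lemma beta_gt_one : 1 < β := by
  have h := u_bounds
  have := Real.sqrt_nonneg (u ^ 2 - 4)
  unfold β; linarith [h.1]

lemma beta_lt_two : β < 2 := by
  have h := u_bounds
  have : √(u ^ 2 - 4) < 1.5 := by
    rw [Real.sqrt_lt' (by norm_num)]; nlinarith [u_sq]
  unfold β; linarith [h.2]

lemma beta_pos : 0 < β := zero_lt_one.trans beta_gt_one

lemma beta_ne : β ≠ 0 := beta_pos.ne'

lemma beta_inv : β⁻¹ = u - β := by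
  have := beta_sq
  exact inv_eq_of_mul_eq_one_right (by linarith)

lemma beta_inv_lt_one : β⁻¹ < 1 := inv_lt_one_of_one_lt₀ beta_gt_one

lemma u'_half : -1 ≤ u' / 2 ∧ u' / 2 ≤ 1 := by
  have h := u'_bounds
  constructor <;> linarith [h.1, h.2]

lemma z_re : z.re = u' / 2 := by
  rw [z, Complex.exp_re]
  simp [α, Real.cos_arccos u'_half.1 u'_half.2]

lemma norm_z : ‖z‖ = 1 := by
  rw [z, Complex.norm_exp_I_mul_ofReal]

lemma normSq_z : Complex.normSq z = 1 := by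
  rw [Complex.normSq_eq_norm_sq, norm_z]; norm_num

lemma z_sq : z ^ 2 = (u':ℂ) * z - 1 := by
  have h1 := normSq_z
  have h2 := z_re
  rw [Complex.normSq_apply] at h1
  apply Complex.ext <;> simp [sq]
  · rw [h2] at h1 ⊢; nlinarith
  · rw [h2]; ring

lemma z_ne : z ≠ 0 := Complex.exp_ne_zero _

lemma z_im_ne : z.im ≠ 0 := by
  intro h
  have h1 := normSq_z
  rw [Complex.normSq_apply, h, z_re] at h1
  nlinarith [u'_bounds.1, u'_bounds.2]

def T (n : ℕ) : ℝ := β ^ n + β⁻¹ ^ n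
def R (n : ℕ) : ℝ := 2 * (z ^ n).re

lemma T_rec (n : ℕ) : T (n + 2) = u * T (n + 1) - T n := by
  have h1 := beta_sq
  have h2 : β⁻¹ ^ 2 = u * β⁻¹ - 1 := by rw [beta_inv]; nlinarith
  have e1 : β ^ (n + 2) = β ^ n * (u * β - 1) := by rw [pow_add, h1]
  have e2 : β⁻¹ ^ (n + 2) = β⁻¹ ^ n * (u * β⁻¹ - 1) := by rw [pow_add, h2]
  simp only [T, e1, e2, pow_succ]
  ring

lemma R_rec (n : ℕ) : R (n + 2) = u' * R (n + 1) - R n := by
  have e : z ^ (n + 2) = (u':ℂ) * z ^ (n + 1) - z ^ n := by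
    rw [pow_add, z_sq, pow_succ]; ring
  simp only [R, e]
  simp
  ring

lemma lin_TR (n : ℕ) :
    (∃ m k : ℤ, T n = m + k * u ∧ R n = m + k * u') ∧
    (∃ m k : ℤ, T (n + 1) = m + k * u ∧ R (n + 1) = m + k * u') := by
  induction n with
  | zero =>
    refine ⟨⟨2, 0, by simp [T]; norm_num, by simp [R]⟩, ⟨0, 1, ?_, ?_⟩⟩
    · simp [T, beta_inv]
    · simp [R, z_re]; ring
  | succ n ih =>
    obtain ⟨⟨m, k, hT, hR⟩, ⟨m1, k1, hT1, hR1⟩⟩ := ih
    refine ⟨⟨m1, k1, hT1, hR1⟩, 3 * k1 - m, m1 + k1 - k, ?_, ?_⟩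
    · rw [T_rec, hT, hT1]
      have := u_sq
      push_cast
      linear_combination (k1:ℝ) * this
    · rw [R_rec, hR, hR1]
      have := u'_sq
      push_cast
      linear_combination (k1:ℝ) * this

lemma sqrt13_irrational : Irrational (√13) := by
  have := (Nat.prime_iff.2 (Nat.prime_iff.1 (by norm_num : Nat.Prime 13))).irrational_sqrt
  simpa using this

lemma u_indep {a b : ℚ} (h : (a:ℝ) + b * u = 0) : a = 0 ∧ b = 0 := by
  by_cases hb : b = 0
  · subst hb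
    simpa using h
  · exfalso
    apply sqrt13_irrational
    refine ⟨-2 * a / b - 1, ?_⟩
    have hb' : (b:ℝ) ≠ 0 := by exact_mod_cast hb
    push_cast
    field_simp
    unfold u at h
    linarith

lemma u'_indep {a b : ℚ} (h : (a:ℝ) + b * u' = 0) : a = 0 ∧ b = 0 := by
  have e : u' = 1 - u := by unfold u u'; ring
  rw [e] at h
  have := u_indep (a := a + b) (b := -b) (by push_cast; linarith)
  constructor <;> linarith [this.1, this.2]

lemma T_gt_two {n : ℕ} (hn : 1 ≤ n) : 2 < T n := by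
  have hb : (1:ℝ) < β ^ n := one_lt_pow₀ beta_gt_one (by omega)
  have hp : 0 < β ^ n := by linarith
  have : 0 < (β ^ n - 1) ^ 2 / β ^ n := by
    have : β ^ n - 1 ≠ 0 := by linarith
    positivity
  have e : (β ^ n - 1) ^ 2 / β ^ n = T n - 2 := by
    simp only [T, inv_pow]; field_simp; ring
  linarith

/-- distance of `z^n` from `1` -/
def δ (n : ℕ) : ℝ := ‖z ^ n - 1‖

lemma delta_sq (n : ℕ) : δ n ^ 2 = 2 - R n := by
  have h : ‖z ^ n‖ = 1 := by rw [norm_pow, norm_z, one_pow]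
  have h' : Complex.normSq (z ^ n) = 1 := by rw [Complex.normSq_eq_norm_sq, h]; norm_num
  rw [δ, ← Complex.normSq_eq_norm_sq, Complex.normSq_sub, h']
  simp [R]
  ring

lemma delta_lower {n : ℕ} (hn : 1 ≤ n) : (β⁻¹) ^ n ≤ δ n := by
  obtain ⟨⟨m, k, hT, hR⟩, -⟩ := lin_TR n
  set N : ℤ := (m - 2) * (2 - m) + k * (2 - m) + 3 * k ^ 2 with hN
  have hprod : (T n - 2) * (2 - R n) = (N : ℝ) := by
    rw [hT, hR, hN]
    have e1 : u + u' = 1 := by unfold u u'; ring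
    have e2 : u * u' = -3 := by
      have h : √(13:ℝ) ^ 2 = 13 := Real.sq_sqrt (by norm_num)
      unfold u u'; nlinarith
    push_cast
    linear_combination (-(k:ℝ) * (m - 2)) * e1 + (-(k:ℝ) ^ 2) * e2
  have hT2 := T_gt_two hn
  have hne : 2 - R n ≠ 0 := by
    intro h
    have : ((2 - m : ℚ) : ℝ) + ((-k : ℚ) : ℝ) * u' = 0 := by
      rw [hR] at h; push_cast; linarith
    obtain ⟨h1, h2⟩ := u'_indep this
    have h2' : k = 0 := by exact_mod_cast neg_eq_zero.1 h2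
    have h1' : (m:ℚ) = 2 := by linarith
    have h1'' : m = 2 := by exact_mod_cast h1'
    subst h2' h1''
    simp at hT
    linarith
  have hnn : 0 ≤ 2 - R n := delta_sq n ▸ sq_nonneg _
  have hpos : 0 < (T n - 2) * (2 - R n) :=
    mul_pos (by linarith) (lt_of_le_of_ne hnn (Ne.symm hne))
  have h1 : (1:ℝ) ≤ N := by
    rw [hprod] at hpos
    exact_mod_cast Int.add_one_le_iff.2 (by exact_mod_cast hpos : (0:ℤ) < N)
  have hx0 : 0 < β⁻¹ ^ n := by have := beta_pos; positivity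
  have hx1 : β⁻¹ ^ n ≤ 1 := pow_le_one₀ (by have := beta_pos; positivity) beta_inv_lt_one.le
  have hxy : β⁻¹ ^ n * β ^ n = 1 := by
    rw [← mul_pow, inv_mul_cancel₀ beta_ne, one_pow]
  have hT3 : T n - 2 ≤ β ^ n := by simp only [T]; linarith
  have h3 : β⁻¹ ^ n ≤ δ n ^ 2 := by
    rw [delta_sq]
    have : 1 ≤ β ^ n * (2 - R n) := by
      nlinarith [mul_le_mul_of_nonneg_right hT3 hnn]
    nlinarith
  nlinarith [norm_nonneg (z ^ n - 1), show δ n = ‖z ^ n - 1‖ from rfl, hx0, hx1]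

lemma delta_pos {n : ℕ} (hn : 1 ≤ n) : 0 < δ n :=
  lt_of_lt_of_le (by have := beta_pos; positivity) (delta_lower hn)

lemma delta_nonneg (n : ℕ) : 0 ≤ δ n := norm_nonneg _

lemma delta_mul (k n : ℕ) : δ (k * n) ≤ k * δ n := by
  induction k with
  | zero => simp [δ]
  | succ k ih =>
    have e : z ^ ((k + 1) * n) - 1 = z ^ (k * n) * (z ^ n - 1) + (z ^ (k * n) - 1) := by
      rw [add_mul, one_mul, pow_add]; ring
    simp only [δ] at ih ⊢
    rw [e]
    refine (norm_add_le _ _).trans ?_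
    rw [norm_mul, norm_pow, norm_z, one_pow, one_mul]
    push_cast
    linarith

lemma dirichlet {Q : ℕ} (hQ : 0 < Q) : ∃ q, 1 ≤ q ∧ q ≤ Q ∧ δ q ≤ 7 / Q := by
  obtain ⟨k, hk0, hkQ, hk⟩ := Real.exists_nat_abs_mul_sub_round_le (α / (2 * Real.pi)) hQ
  refine ⟨k, hk0, hkQ, ?_⟩
  set p : ℤ := round (k * (α / (2 * Real.pi))) with hp
  set x : ℝ := 2 * Real.pi * (k * (α / (2 * Real.pi)) - p) with hx
  have e : z ^ k = Complex.exp (Complex.I * x) := by
    rw [z, ← Complex.exp_nat_mul]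
    rw [Complex.exp_eq_exp_iff_exists_int]
    refine ⟨p, ?_⟩
    rw [hx]
    push_cast
    field_simp
    ring
  rw [δ, e]
  refine norm_exp_sub.trans ?_
  rw [hx, Real.norm_eq_abs, abs_mul, abs_of_pos (by positivity : 0 < 2 * Real.pi)]
  have hQ' : (0:ℝ) < Q := by exact_mod_cast hQ
  calc 2 * Real.pi * |_| ≤ 2 * Real.pi * (1 / (Q + 1)) :=
        mul_le_mul_of_nonneg_left hk (by positivity)
    _ ≤ 7 * (1 / Q) := by
        apply mul_le_mul (by linarith [Real.pi_lt_d2]) _ (by positivity) (by norm_num)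
        exact one_div_le_one_div_of_le hQ' (by linarith)
    _ = 7 / Q := by ring
where
  norm_exp_sub {x : ℝ} : ‖Complex.exp (Complex.I * x) - (1 : ℂ)‖ ≤ ‖x‖ :=
    Real.norm_exp_I_mul_ofReal_sub_one_le

/-- `a β^j + b β^{-j} + 2 Re (C z^j)` is an integer for every integer `j`. -/
def IntE (a b : ℝ) (C : ℂ) : Prop :=
  ∀ j : ℤ, ∃ p : ℤ, a * β ^ j + b * β ^ (-j) + 2 * (C * z ^ j).re = p

lemma re_zpow_neg (n : ℕ) : (z ^ (-(n:ℤ))).re = (z ^ n).re := by
  rw [zpow_neg, zpow_natCast, Complex.inv_re, map_pow, normSq_z, one_pow, div_one]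

lemma TR_int (j : ℤ) : ∃ n : ℕ, β ^ j + β ^ (-j) = T n ∧ 2 * (z ^ j).re = R n := by
  obtain ⟨n, rfl | rfl⟩ := Int.eq_nat_or_neg j
  · exact ⟨n, by simp [T, zpow_neg], by simp [R]⟩
  · exact ⟨n, by simp [T, zpow_neg]; ring, by rw [R, re_zpow_neg]⟩

lemma intE_base : IntE A A (B:ℂ) := by
  intro j
  obtain ⟨n, hT, hR⟩ := TR_int j
  obtain ⟨⟨m, k, hTn, hRn⟩, -⟩ := lin_TR n
  refine ⟨36 * m + 83 * k, ?_⟩
  rw [Complex.re_ofReal_mul]
  have e : A * β ^ j + A * β ^ (-j) + 2 * (B * (z ^ j).re) = A * T n + B * R n := by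
    rw [← hT, ← hR]; ring
  rw [e, hTn, hRn]
  have := u_sq
  have := u'_sq
  have e1 : u + u' = 1 := by unfold u u'; ring
  unfold A B
  push_cast
  linear_combination (10 * (k:ℝ)) * u_sq + (10 * (k:ℝ)) * u'_sq +
    (10 * (m:ℝ) + 23 * k) * e1

lemma cos_base_ne_zero (j : ℤ) : Real.cos (2 * Real.pi * (A * β ^ j)) ≠ 0 := by
  intro h
  obtain ⟨l, hl⟩ := Real.cos_eq_zero_iff.1 h
  obtain ⟨n, hT, -⟩ := TR_int j
  obtain ⟨⟨m, k, hTn, -⟩, -⟩ := lin_TR n
  set p : ℤ := 2 * l + 1 with hp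
  have hpi := Real.pi_pos
  have hx : A * β ^ j = (p:ℝ) / 4 := by
    have : 2 * Real.pi * (A * β ^ j) = 2 * Real.pi * ((p:ℝ) / 4) := by
      rw [hl, hp]; push_cast; ring
    exact mul_left_cancel₀ (by positivity) this
  have hp0 : (p:ℝ) ≠ 0 := by
    have : p ≠ 0 := by omega
    exact_mod_cast this
  have hxy : (A * β ^ j) * (A * β ^ (-j)) = A ^ 2 := by
    rw [zpow_neg]
    have := zpow_ne_zero j beta_ne
    field_simp
  have hy : A * β ^ (-j) = 4 * A ^ 2 / p := by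
    rw [hx] at hxy
    field_simp
    linarith
  have key : (p:ℝ) / 4 + 4 * A ^ 2 / p = (13 * m + 30 * k) + (10 * m + 23 * k) * u := by
    rw [← hx, ← hy, ← mul_add, hT, hTn]
    unfold A
    linear_combination (10 * (k:ℝ)) * u_sq
  have hA2 : A ^ 2 = 360 * u + 469 := by
    unfold A; linear_combination 100 * u_sq
  rw [hA2] at key
  have : ((p ^ 2 + 7504 - 4 * p * (13 * m + 30 * k) : ℚ) : ℝ) +
      ((5760 - 4 * p * (10 * m + 23 * k) : ℚ) : ℝ) * u = 0 := by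
    field_simp at key
    push_cast
    linarith
  obtain ⟨h0, -⟩ := u_indep this
  have h0' : p ^ 2 + 7504 - 4 * p * (13 * m + 30 * k) = 0 := by exact_mod_cast h0
  have h2 : (p ^ 2 + 7504 - 4 * p * (13 * m + 30 * k)) % 2 = 1 := by
    rw [hp]; ring_nf; omega
  omega

lemma exists_gamma : ∃ γ : ℝ, 0 < γ ∧ γ ≤ 1 ∧
    ∀ j : ℤ, γ ≤ |Real.cos (2 * Real.pi * (A * β ^ j))| := by
  obtain ⟨J, hJ⟩ := exists_pow_lt_of_lt_one (show (0:ℝ) < 1 / 10000 by norm_num) beta_inv_lt_one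
  have hA := A_bounds
  have hB := B_bounds
  have hpi := Real.pi_lt_d2
  have hpi0 := Real.pi_pos
  have small : ∀ j : ℤ, (J:ℤ) ≤ j → A * β ^ (-j) ≤ 37 / 10000 := by
    intro j hj
    have h1 : β ^ (-j) ≤ β ^ (-(J:ℤ)) := zpow_le_zpow_right₀ beta_gt_one.le (by omega)
    rw [zpow_neg β (J:ℤ), zpow_natCast, ← inv_pow] at h1
    have := zpow_pos beta_pos (-j)
    nlinarith [A_pos]
  have far : ∀ j : ℤ, (J:ℤ) ≤ |j| → 1 / 2 ≤ |Real.cos (2 * Real.pi * (A * β ^ j))| := by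
    intro j hj
    have key : ∀ x : ℝ, |x| ≤ 0.07 → 1 / 2 ≤ |Real.cos (2 * Real.pi * x)| := by
      intro x hx
      have h1 := Real.abs_cos_sub_cos_le (2 * Real.pi * x) 0
      rw [Real.cos_zero, sub_zero, abs_mul, abs_of_pos (by positivity : 0 < 2 * Real.pi)] at h1
      have h2 : 2 * Real.pi * |x| ≤ 2 * Real.pi * 0.07 :=
        mul_le_mul_of_nonneg_left hx (by positivity)
      have h3 := abs_le.1 h1
      have h4 := le_abs_self (Real.cos (2 * Real.pi * x))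
      linarith
    rcases le_or_gt 0 j with h0 | h0
    · rw [abs_of_nonneg h0] at hj
      obtain ⟨p, hp⟩ := intE_base j
      set x : ℝ := A * β ^ (-j) + 2 * ((B:ℂ) * z ^ j).re with hx
      have e : 2 * Real.pi * (A * β ^ j) = -(2 * Real.pi * x) + p * (2 * Real.pi) := by
        rw [hx]; linear_combination (2 * Real.pi) * hp
      rw [e, Real.cos_add_int_mul_two_pi, Real.cos_neg]
      refine key x ?_
      have h1 := small j hj
      have h2 : |((B:ℂ) * z ^ j).re| ≤ 0.03 := by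
        refine (Complex.abs_re_le_norm _).trans ?_
        rw [norm_mul, Complex.norm_real, norm_zpow, norm_z, one_zpow, mul_one, Real.norm_eq_abs]
        rw [abs_le]; constructor <;> linarith [hB.1, hB.2]
      have h3 := abs_le.1 h2
      have : 0 < A * β ^ (-j) := mul_pos A_pos (zpow_pos beta_pos _)
      rw [hx, abs_le]; constructor <;> linarith [h3.1, h3.2]
    · rw [abs_of_neg h0] at hj
      refine key _ ?_
      have h1 := small (-j) hj
      rw [neg_neg] at h1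
      rw [abs_of_pos (mul_pos A_pos (zpow_pos beta_pos _))]
      linarith
  obtain ⟨i, -, hi⟩ := (Finset.Icc (-(J:ℤ)) J).exists_min_image
    (fun j => |Real.cos (2 * Real.pi * (A * β ^ j))|) ⟨0, by simp⟩
  refine ⟨min (1 / 2) |Real.cos (2 * Real.pi * (A * β ^ i))|, ?_, ?_, fun j => ?_⟩
  · exact lt_min (by norm_num) (abs_pos.2 (cos_base_ne_zero i))
  · exact (min_le_left _ _).trans (by norm_num)
  · by_cases hj : (J:ℤ) ≤ |j|
    · exact (min_le_left _ _).trans (far j hj)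
    · refine (min_le_right _ _).trans (hi j ?_)
      rw [Finset.mem_Icc]
      rw [not_le, abs_lt] at hj
      omega

lemma isIntegral_beta : IsIntegral ℤ β := by
  refine ⟨Polynomial.X ^ 4 - Polynomial.X ^ 3 - Polynomial.X ^ 2 - Polynomial.X + 1, ?_, ?_⟩
  · monicity!
  · simp only [Polynomial.eval₂_add, Polynomial.eval₂_sub, Polynomial.eval₂_X_pow,
      Polynomial.eval₂_X, Polynomial.eval₂_one]
    linear_combination (β ^ 2 + (u - 1) * β + 1) * beta_sq + β ^ 2 * u_sq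

/-- every rational polynomial evaluates at `β` and at `z` as the two conjugates of one element
of `ℚ(√13)[x]` of degree at most one in `x`. -/
lemma poly_rep (g : Polynomial ℚ) : ∃ s0 s1 t0 t1 : ℚ,
    Polynomial.aeval β g = ((s0:ℝ) + s1 * u) * β + ((t0:ℝ) + t1 * u) ∧
    Polynomial.aeval z g = (((s0:ℝ) + s1 * u' : ℝ) : ℂ) * z + (((t0:ℝ) + t1 * u' : ℝ) : ℂ) := by
  induction g using Polynomial.induction_on with
  | C a =>
    refine ⟨0, 0, a, 0, ?_, ?_⟩
    · simp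
    · simp
  | add p q hp hq =>
    obtain ⟨a0, a1, b0, b1, h1, h2⟩ := hp
    obtain ⟨c0, c1, d0, d1, h3, h4⟩ := hq
    refine ⟨a0 + c0, a1 + c1, b0 + d0, b1 + d1, ?_, ?_⟩
    · rw [map_add, h1, h3]; push_cast; ring
    · rw [map_add, h2, h4]; push_cast; ring
  | monomial n a h =>
    obtain ⟨s0, s1, t0, t1, h1, h2⟩ := h
    refine ⟨3 * s1 + t0, s0 + s1 + t1, -s0, -s1, ?_, ?_⟩
    · rw [pow_succ, ← mul_assoc, map_mul, h1, Polynomial.aeval_X]
      push_cast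
      linear_combination ((s0:ℝ) + s1 * u) * beta_sq + ((s1:ℝ) * β) * u_sq
    · rw [pow_succ, ← mul_assoc, map_mul, h2, Polynomial.aeval_X]
      have h' : (u':ℂ) ^ 2 = (u':ℂ) + 3 := by exact_mod_cast u'_sq
      push_cast
      linear_combination ((s0:ℂ) + s1 * (u':ℂ)) * z_sq + ((s1:ℂ) * z) * h'

lemma aeval_z_of_beta (g : Polynomial ℚ) (hg : Polynomial.aeval β g = 0) :
    Polynomial.aeval z g = 0 := by
  obtain ⟨s0, s1, t0, t1, h1, h2⟩ := poly_rep g
  rw [hg] at h1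
  have hb : ((t0:ℝ) + t1 * u) ^ 2 + u * ((s0:ℝ) + s1 * u) * ((t0:ℝ) + t1 * u)
      + ((s0:ℝ) + s1 * u) ^ 2 = 0 := by
    linear_combination (-((t0:ℝ) + t1 * u) + ((s0:ℝ) + s1 * u) * β - u * ((s0:ℝ) + s1 * u)) * h1
      + ((s0:ℝ) + s1 * u) ^ 2 * beta_sq
  -- coefficients in the basis 1, u
  have e : ∀ w : ℝ, w ^ 2 = w + 3 →
      ((t0:ℝ) + t1 * w) ^ 2 + w * ((s0:ℝ) + s1 * w) * ((t0:ℝ) + t1 * w)
        + ((s0:ℝ) + s1 * w) ^ 2 =
      ((t0 ^ 2 + 3 * t1 ^ 2 + 3 * (s0 * t1 + s1 * t0) + 3 * (s1 * t1) + s0 ^ 2 + 3 * s1 ^ 2 : ℚ) : ℝ)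
      + ((2 * t0 * t1 + t1 ^ 2 + s0 * t0 + (s0 * t1 + s1 * t0) + 4 * (s1 * t1)
          + 2 * s0 * s1 + s1 ^ 2 : ℚ) : ℝ) * w := by
    intro w hw
    push_cast
    linear_combination ((t1:ℝ) ^ 2 + (s0 * t1 + s1 * t0) + (s1 * t1) * (w + 1) + (s1:ℝ) ^ 2) * hw
  rw [e u u_sq] at hb
  obtain ⟨hP, hQ⟩ := u_indep hb
  have hz := e u' u'_sq
  rw [hP, hQ] at hz
  simp only [Rat.cast_zero, zero_mul, add_zero] at hz
  set S := (s0:ℝ) + s1 * u'
  set W := (t0:ℝ) + t1 * u'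
  have hS : S = 0 := by
    have := u'_bounds
    have h5 : 0 < 1 - u' ^ 2 / 4 := by nlinarith
    have h6 : (1 - u' ^ 2 / 4) * S ^ 2 ≤ 0 := by nlinarith [sq_nonneg (W + u' / 2 * S)]
    have h7 : S ^ 2 ≤ 0 := nonpos_of_mul_nonpos_right h6 h5
    exact pow_eq_zero_iff two_ne_zero |>.1 (le_antisymm h7 (sq_nonneg S))
  have hW : W = 0 := by
    rw [hS] at hz; nlinarith
  rw [h2, hS, hW]
  simp

lemma z_ne_beta : z ≠ (β:ℂ) := by
  intro h
  exact z_im_ne (by rw [h]; simp)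

lemma aeval_minpoly_z : Polynomial.aeval z (minpoly ℚ β) = 0 :=
  aeval_z_of_beta _ (minpoly.aeval ℚ β)

end

end Vale.Agent.P105
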