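import Vale.Agent.P105.Freq

/-!
From frequency data for every tolerance to mutual singularity: a second moment test.
-/

namespace Vale.Agent.P105

open MeasureTheory Filter Topology

noncomputable section

lemma abs_integral_cos_le {s : ℝ} (hs : s ≠ 0) (R : ℝ) :
    |∫ x in -R..R, Real.cos (s * x)| ≤ 2 / |s| := by
  rw [intervalIntegral.integral_comp_mul_left (fun x => Real.cos x) hs, integral_cos]
  rw [smul_eq_mul, abs_mul, abs_inv, div_eq_inv_mul]
  gcongr
  refine (abs_sub _ _).trans ?_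
  linarith [Real.abs_sin_le_one (s * R), Real.abs_sin_le_one (s * -R)]

lemma cos_mul_cos' (p q x : ℝ) :
    Real.cos (p * x) * Real.cos (q * x) =
      (Real.cos ((p + q) * x) + Real.cos ((p - q) * x)) / 2 := by
  rw [add_mul, sub_mul, Real.cos_add, Real.cos_sub]; ring

lemma exp_sub_one_le {x : ℝ} (h0 : 0 ≤ x) (h1 : x ≤ 1) : Real.exp x - 1 ≤ 2 * x := by
  have := Real.abs_exp_sub_one_le (x := x) (by rwa [abs_of_nonneg h0])
  rw [abs_of_nonneg h0] at this
  exact (le_abs_self _).trans this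

/-- Constant in the correlation bound. -/
def KK (b g : ℝ) : ℝ := 42 / g + 1440 + 80 / (1 - b⁻¹)

lemma integrable_of_continuous_bounded {μ : Measure ℝ} [IsFiniteMeasure μ] {f : ℝ → ℝ}
    (hf : Continuous f) {C : ℝ} (hC : ∀ x, |f x| ≤ C) : Integrable f μ :=
  (integrable_const C).mono' hf.measurable.aestronglyMeasurable
    (Eventually.of_forall fun x => by simpa using hC x)

/-- Chebyshev for `∑ cos (t i x)` when the cosines are nearly uncorrelated. -/
lemma moment_prob {μ : Measure ℝ} [IsProbabilityMeasure μ] (t : ℕ → ℝ) (N : ℕ) {v η : ℝ}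
    (hη : 0 ≤ η) (hmean : ∀ i < N, |∫ x, Real.cos (t i * x) ∂μ - v| ≤ η * |v|)
    (hcc : ∀ i < N, ∀ l < N, i ≠ l →
      ∫ x, Real.cos (t i * x) * Real.cos (t l * x) ∂μ ≤ (1 + η) * v ^ 2) :
    ((N * v) ^ 2 / 4) * μ.real {x | (N * v) ^ 2 / 4 ≤
        ((∑ i ∈ Finset.range N, Real.cos (t i * x)) - N * v) ^ 2}
      ≤ N + 3 * η * (N * v) ^ 2 := by
  set S : ℝ → ℝ := fun x => ∑ i ∈ Finset.range N, Real.cos (t i * x) with hS
  set m : ℝ := N * v with hm
  have intC : ∀ i l, Integrable (fun x => Real.cos (t i * x) * Real.cos (t l * x)) μ := fun i l =>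
    integrable_of_continuous_bounded (by fun_prop) (C := 1) fun x => by
      rw [abs_mul]
      exact mul_le_one₀ (Real.abs_cos_le_one _) (abs_nonneg _) (Real.abs_cos_le_one _)
  have int1 : ∀ i, Integrable (fun x => Real.cos (t i * x)) μ := fun i =>
    integrable_of_continuous_bounded (by fun_prop) fun x => Real.abs_cos_le_one _
  have intS : Integrable S μ := integrable_finsetSum _ fun i _ => int1 i
  have eS2 : (fun x => S x ^ 2) = fun x => ∑ i ∈ Finset.range N, ∑ l ∈ Finset.range N,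
      Real.cos (t i * x) * Real.cos (t l * x) := by
    funext x; rw [sq, hS, Finset.sum_mul_sum]
  have intS2 : Integrable (fun x => S x ^ 2) μ := by
    rw [eS2]; exact integrable_finsetSum _ fun i _ => integrable_finsetSum _ fun l _ => intC i l
  have hS1 : |∫ x, S x ∂μ - m| ≤ η * |m| := by
    rw [hS, integral_finsetSum _ fun i _ => int1 i]
    have : m = ∑ i ∈ Finset.range N, v := by simp [hm]
    rw [this, ← Finset.sum_sub_distrib]
    refine (Finset.abs_sum_le_sum_abs _ _).trans ?_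
    refine (Finset.sum_le_sum fun i hi => hmean i (Finset.mem_range.1 hi)).trans ?_
    rw [← this]
    simp [hm, abs_mul]
    linarith
  have hS2 : ∫ x, S x ^ 2 ∂μ ≤ N + (1 + η) * m ^ 2 := by
    rw [eS2, integral_finsetSum _ fun i _ => integrable_finsetSum _ fun l _ => intC i l]
    refine (Finset.sum_le_card_nsmul _ _ (1 + N * ((1 + η) * v ^ 2)) fun i hi => ?_).trans ?_
    · rw [integral_finsetSum _ fun l _ => intC i l, ← Finset.add_sum_erase _ _ hi]
      apply add_le_add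
      · calc ∫ x, Real.cos (t i * x) * Real.cos (t i * x) ∂μ ≤ ∫ _x, (1:ℝ) ∂μ :=
            integral_mono (intC i i) (integrable_const _) (fun x => by
              nlinarith [Real.sin_sq_add_cos_sq (t i * x), sq_nonneg (Real.sin (t i * x))])
          _ = 1 := by simp
      · refine (Finset.sum_le_card_nsmul _ _ ((1 + η) * v ^ 2) fun l hl => ?_).trans ?_
        · have hl' := Finset.mem_erase.1 hl
          exact hcc i (Finset.mem_range.1 hi) l (Finset.mem_range.1 hl'.2) (Ne.symm hl'.1)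
        · rw [nsmul_eq_mul]
          apply mul_le_mul_of_nonneg_right _ (by positivity)
          exact_mod_cast (Finset.card_erase_le.trans (Finset.card_range N).le)
    · rw [Finset.card_range, nsmul_eq_mul, hm]
      ring_nf
      rfl
  have e : (fun x => (S x - m) ^ 2) = fun x => S x ^ 2 - (2 * m) * S x + m ^ 2 := by
    funext x; ring
  have hint : Integrable (fun x => (S x - m) ^ 2) μ := by
    rw [e]; exact (intS2.sub (intS.const_mul _)).add (integrable_const _)
  have hdev : ∫ x, (S x - m) ^ 2 ∂μ ≤ N + 3 * η * m ^ 2 := by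
    have i1 : Integrable (fun x => S x ^ 2 - 2 * m * S x) μ := intS2.sub (intS.const_mul _)
    rw [e, integral_add i1 (integrable_const _),
      integral_sub intS2 (intS.const_mul _), integral_const_mul, integral_const, probReal_univ,
      one_smul]
    have h1 : |m * (∫ x, S x ∂μ - m)| ≤ η * m ^ 2 := by
      rw [abs_mul]
      calc |m| * |∫ x, S x ∂μ - m| ≤ |m| * (η * |m|) := by gcongr
        _ = η * m ^ 2 := by rw [← sq_abs m]; ring
    have := abs_le.1 h1
    linarith
  exact (mul_meas_ge_le_integral_of_nonneg (Eventually.of_forall fun x => sq_nonneg _) hint _).trans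
    hdev

/-- Second moment of `∑ cos (t i x)` for Lebesgue measure on an interval. -/
lemma moment_leb (t : ℕ → ℝ) (N : ℕ) {κ R D : ℝ} (hR : 0 ≤ R) (hκ : (N:ℝ) * κ ≤ 1 / D)
    (hκ0 : 0 ≤ κ)
    (hoff : ∀ i < N, ∀ l < i, ∀ σ : ℝ, (σ = 1 ∨ σ = -1) →
        |∫ x in -R..R, Real.cos ((t i + σ * t l) * x)| ≤ κ) (m : ℝ) :
    (m ^ 2 / 4) * (volume.restrict (Set.Icc (-R) R)).real
        {x | m ^ 2 / 4 ≤ (∑ i ∈ Finset.range N, Real.cos (t i * x)) ^ 2}
      ≤ N * (2 * R + 1 / D) := by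
  set S : ℝ → ℝ := fun x => ∑ i ∈ Finset.range N, Real.cos (t i * x) with hS
  set ν := volume.restrict (Set.Icc (-R) R) with hνdef
  have : IsFiniteMeasure ν := isFiniteMeasure_restrict.2 measure_Icc_lt_top.ne
  have hSc : Continuous S := by rw [hS]; fun_prop
  have intν : Integrable (fun x => S x ^ 2) ν := (hSc.pow 2).integrableOn_Icc
  have eS2 : (fun x => S x ^ 2) = fun x => ∑ i ∈ Finset.range N, ∑ l ∈ Finset.range N,
      Real.cos (t i * x) * Real.cos (t l * x) := by
    funext x; rw [sq, hS, Finset.sum_mul_sum]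
  refine (mul_meas_ge_le_integral_of_nonneg (Eventually.of_forall fun x => sq_nonneg _) intν
    _).trans ?_
  have main : ∀ i < N, ∀ l < i,
      ∫ x in -R..R, Real.cos (t i * x) * Real.cos (t l * x) ≤ κ := by
    intro i hi l hl
    simp_rw [cos_mul_cos']
    rw [intervalIntegral.integral_div, intervalIntegral.integral_add
      (Continuous.intervalIntegrable (by fun_prop) _ _)
      (Continuous.intervalIntegrable (by fun_prop) _ _)]
    have h1 := abs_le.1 (hoff i hi l hl 1 (Or.inl rfl))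
    have h2 := abs_le.1 (hoff i hi l hl (-1) (Or.inr rfl))
    rw [one_mul] at h1
    rw [neg_one_mul, ← sub_eq_add_neg] at h2
    linarith [h1.2, h2.2]
  have hcl : ∀ i < N, ∀ l < N, i ≠ l →
      ∫ x in -R..R, Real.cos (t i * x) * Real.cos (t l * x) ≤ κ := by
    intro i hi l hl hil
    rcases Nat.lt_or_gt_of_ne hil with h | h
    · simp_rw [mul_comm (Real.cos (t i * _))]
      exact main l hl i h
    · exact main i hi l h
  rw [hνdef, integral_Icc_eq_integral_Ioc, ← intervalIntegral.integral_of_le (by linarith), eS2,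
    intervalIntegral.integral_finsetSum fun i _ =>
      Continuous.intervalIntegrable (by fun_prop) _ _]
  refine (Finset.sum_le_card_nsmul _ _ (2 * R + 1 / D) fun i hi => ?_).trans
    (by rw [Finset.card_range, nsmul_eq_mul])
  rw [intervalIntegral.integral_finsetSum fun l _ =>
      Continuous.intervalIntegrable (by fun_prop) _ _, ← Finset.add_sum_erase _ _ hi]
  apply add_le_add
  · calc ∫ x in -R..R, Real.cos (t i * x) * Real.cos (t i * x) ≤ ∫ _x in -R..R, (1:ℝ) :=
        intervalIntegral.integral_mono_on (by linarith)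
          (Continuous.intervalIntegrable (by fun_prop) _ _) intervalIntegrable_const
          (fun x _ => by
            nlinarith [Real.sin_sq_add_cos_sq (t i * x), sq_nonneg (Real.sin (t i * x))])
      _ = 2 * R := by simp; ring
  · refine (Finset.sum_le_card_nsmul _ _ κ fun l hl => ?_).trans ?_
    · have hl' := Finset.mem_erase.1 hl
      exact hcl i (Finset.mem_range.1 hi) l (Finset.mem_range.1 hl'.2) (Ne.symm hl'.1)
    · rw [nsmul_eq_mul]
      refine le_trans ?_ hκ
      gcongr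
      exact_mod_cast (Finset.card_erase_le.trans (Finset.card_range N).le)

section

variable {b g ε : ℝ} (D : Datum b g ε)

/-- spacing of the frequencies -/
def Datum.G : ℕ := (D.hi - D.lo + 2).toNat

/-- exponent of the `i`-th frequency -/
def Datum.k (i : ℕ) : ℤ := D.hi + i * D.G

/-- number of frequencies -/
def Datum.N : ℕ := ⌊1 / (D.c * D.G)⌋₊

lemma Datum.G_int : (D.G : ℤ) = D.hi - D.lo + 2 := by
  have := D.lo_le; have := D.hi_ge
  rw [Datum.G, Int.toNat_of_nonneg (by omega)]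

lemma Datum.G_real : (D.G : ℝ) = (D.hi:ℝ) - D.lo + 2 := by
  rw [← Int.cast_natCast (R := ℝ), D.G_int]; push_cast; ring

lemma Datum.two_le_G : (2:ℝ) ≤ D.G := by
  have := D.lo_le; have := D.hi_ge
  have : (2:ℤ) ≤ D.G := by rw [D.G_int]; omega
  exact_mod_cast this

lemma Datum.eps_pos (D : Datum b g ε) : 0 < ε := D.c_pos.trans_le D.c_le

lemma Datum.cond' : D.c * D.G ≤ ε * D.v ^ 2 := by rw [D.G_real]; exact D.cond

lemma Datum.cG_le : D.c * D.G ≤ ε := by
  refine D.cond'.trans (mul_le_of_le_one_right D.eps_pos.le ?_)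
  have : |D.v| ≤ 1 := by
    rw [Datum.v, Finset.abs_prod]
    exact Finset.prod_le_one (fun _ _ => abs_nonneg _) (fun _ _ => abs_cs_le _)
  rw [← sq_abs]; exact pow_le_one₀ (abs_nonneg _) this

lemma Datum.cG_pos : 0 < D.c * D.G := by
  have := D.c_pos; have := D.two_le_G; positivity

lemma Datum.v_sq_pos : 0 < D.v ^ 2 := by
  by_contra h
  have h' : D.v ^ 2 = 0 := le_antisymm (not_lt.1 h) (sq_nonneg _)
  have := D.cond'
  rw [h', mul_zero] at this
  linarith [D.cG_pos]

lemma Datum.N_cG : (D.N:ℝ) * (D.c * D.G) ≤ 1 :=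
  (le_div_iff₀ D.cG_pos).1 (Nat.floor_le (by have := D.cG_pos; positivity))

lemma Datum.N_c : (D.N:ℝ) * D.c ≤ 1 := by
  refine le_trans ?_ D.N_cG
  have := D.c_pos
  gcongr
  nlinarith [D.two_le_G]

lemma Datum.N_v (hε : ε ≤ 1 / 2) : 1 ≤ (D.N * D.v ^ 2) * (2 * ε) := by
  have h0 := D.cG_pos
  have h1 : 1 / (D.c * D.G) - 1 < D.N := Nat.sub_one_lt_floor _
  have h2 : 1 ≤ (D.N : ℝ) * (2 * (D.c * D.G)) := by
    rw [div_sub_one h0.ne', div_lt_iff₀ h0] at h1
    linarith [D.cG_le]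
  calc (1:ℝ) ≤ (D.N : ℝ) * (2 * (D.c * D.G)) := h2
    _ ≤ (D.N : ℝ) * (2 * (ε * D.v ^ 2)) :=
      mul_le_mul_of_nonneg_left (by linarith [D.cond']) (Nat.cast_nonneg _)
    _ = _ := by ring

lemma Datum.len_nonneg (i : ℕ) : 0 ≤ (D.k i : ℝ) - D.lo + 1 := by
  have : D.lo ≤ D.k i := by
    have := D.lo_le; have := D.hi_ge
    have : (0:ℤ) ≤ i * D.G := by positivity
    rw [Datum.k]; omega
  have : (D.lo:ℝ) ≤ D.k i := by exact_mod_cast this
  linarith

lemma Datum.len_le {i : ℕ} (hi : i < D.N) : D.c ^ 2 * ((D.k i : ℝ) - D.lo + 1) ≤ ε := by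
  have hi' : (i:ℝ) + 1 ≤ D.N := by exact_mod_cast hi
  have : (D.k i : ℝ) - D.lo + 1 ≤ D.N * D.G := by
    simp only [Datum.k]; push_cast
    nlinarith [D.G_real, D.two_le_G]
  calc D.c ^ 2 * ((D.k i : ℝ) - D.lo + 1) ≤ D.c ^ 2 * (D.N * D.G) := by gcongr
    _ = D.c * (D.N * (D.c * D.G)) := by ring
    _ ≤ D.c * 1 := mul_le_mul_of_nonneg_left D.N_cG D.c_pos.le
    _ ≤ ε := by linarith [D.c_le]

lemma Datum.hi_le_k (i : ℕ) : D.hi ≤ D.k i := by
  have : (0:ℤ) ≤ i * D.G := by positivity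
  rw [Datum.k]; omega

lemma Datum.sq_tail (hb : 1 < b) (hε : ε ≤ 1) : D.c ^ 2 / (1 - b⁻¹) ≤ ε / (1 - b⁻¹) := by
  apply div_le_div_of_nonneg_right _ (by linarith [inv_lt_one_of_one_lt₀ hb])
  nlinarith [D.c_le, D.c_pos]

lemma Datum.mean_le (hb : 1 < b) (hg : 0 < g) (hε : ε ≤ 1 / 2) (hε' : KK b g * ε ≤ 1)
    {i : ℕ} (hi : i < D.N) :
    |∫ x, Real.cos (D.t (D.k i) * x) ∂bern b⁻¹ - D.v| ≤ 2 * (KK b g * ε) * |D.v| := by
  refine (D.mean hb _ (D.hi_le_k i)).trans (mul_le_mul_of_nonneg_right ?_ (abs_nonneg _))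
  have h1 := D.len_le hi
  have h2 := D.len_nonneg i
  have h3 : 0 < 1 - b⁻¹ := by linarith [inv_lt_one_of_one_lt₀ hb]
  have := D.eps_pos
  have h4 := D.sq_tail hb (by linarith)
  refine (exp_sub_one_le (by positivity) ?_).trans ?_
  all_goals
    have e : KK b g * ε = 42 / g * ε + 1440 * ε + 80 * (ε / (1 - b⁻¹)) := by unfold KK; ring
    have : 0 ≤ 42 / g * ε := by positivity
    have : 0 ≤ ε / (1 - b⁻¹) := by positivity
    rw [mul_assoc 180, mul_div_assoc]
    linarith

lemma Datum.pair_le (hb : 1 < b) (hg : 0 < g) (hε : ε ≤ 1 / 2) (hε' : KK b g * ε ≤ 1)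
    {i l : ℕ} (hi : i < D.N) (hl : l < i) (σ : ℝ) (hσ : σ = 1 ∨ σ = -1) :
    |∫ x, Real.cos ((D.t (D.k i) + σ * D.t (D.k l)) * x) ∂bern b⁻¹ - D.v ^ 2| ≤
      2 * (KK b g * ε) * D.v ^ 2 := by
  have hG := D.G_int
  have := D.lo_le
  have := D.hi_ge
  set d : ℤ := ((i:ℤ) - l) * D.G with hd
  have hd1 : D.hi - D.lo + 1 ≤ d := by
    have : (1:ℤ) * D.G ≤ ((i:ℤ) - l) * D.G := by gcongr; omega
    omega
  have e1 : D.k l = D.k i - d := by simp only [Datum.k, hd]; ring
  have hkd : D.hi + d ≤ D.k i := by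
    simp only [Datum.k, hd]
    have : (0:ℤ) ≤ l * D.G := by positivity
    linarith
  rw [e1]
  refine (D.pair hb hg _ d hd1 hkd σ hσ).trans (mul_le_mul_of_nonneg_right ?_ (sq_nonneg _))
  have h1 := D.len_le hi
  have h2 := D.len_nonneg i
  have h3 : 0 < 1 - b⁻¹ := by linarith [inv_lt_one_of_one_lt₀ hb]
  have := D.eps_pos
  have := D.c_pos
  have h4 := D.sq_tail hb (by linarith)
  have h5 : (0:ℝ) ≤ (D.hi:ℝ) - D.lo + 1 := by
    have : (D.lo:ℝ) ≤ D.hi := by exact_mod_cast (by omega : D.lo ≤ D.hi)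
    linarith
  have h6 : D.c * ((D.hi:ℝ) - D.lo + 1) ≤ ε := by
    refine le_trans ?_ D.cG_le
    gcongr
    linarith [D.G_real]
  have h7 : 42 / g * (D.c * ((D.hi:ℝ) - D.lo + 1)) ≤ 42 / g * ε := by gcongr
  refine (exp_sub_one_le (by positivity) ?_).trans ?_
  all_goals
    have e : KK b g * ε = 42 / g * ε + 1440 * ε + 80 * (ε / (1 - b⁻¹)) := by unfold KK; ring
    have e2 : 42 * D.c / g * ((D.hi:ℝ) - D.lo + 1) =
        42 / g * (D.c * ((D.hi:ℝ) - D.lo + 1)) := by ring
    rw [e2, mul_assoc 720, mul_div_assoc]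
    linarith

lemma Datum.off_leb (hb : 1 < b) (R : ℝ) {i l : ℕ} (hl : l < i) (σ : ℝ) (hσ : σ = 1 ∨ σ = -1) :
    |∫ x in -R..R, Real.cos ((D.t (D.k i) + σ * D.t (D.k l)) * x)| ≤ D.c / (b - 1) := by
  have hc := D.c_pos
  have hb' : 0 < b - 1 := by linarith
  have hG := D.G_int
  have := D.lo_le
  have := D.hi_ge
  have hmono : D.k l + 1 ≤ D.k i := by
    have : ((l:ℤ) + 1) * D.G ≤ i * D.G := by gcongr; omega
    have : (1:ℤ) ≤ D.G := by omega
    simp only [Datum.k]
    linarith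
  have hp0 : 0 < b ^ D.k l := zpow_pos (by linarith) _
  have hp1 : b ^ D.k l * b ≤ b ^ D.k i := by
    rw [← zpow_add_one₀ (by linarith)]; exact zpow_le_zpow_right₀ hb.le hmono
  have hp2 : 1 / D.c ≤ b ^ D.k l :=
    D.hi_big.trans (zpow_le_zpow_right₀ hb.le (D.hi_le_k l))
  have hpi : 2 ≤ 2 * Real.pi * D.a := by nlinarith [Real.pi_gt_three, D.one_le_a]
  have hbi : (b - 1) / D.c * 2 ≤ D.t (D.k i) + σ * D.t (D.k l) := by
    have : (b - 1) / D.c * 2 ≤ 2 * Real.pi * D.a * (b ^ D.k l * (b - 1)) := by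
      rw [div_eq_mul_one_div, mul_comm]
      refine mul_le_mul hpi ?_ (by positivity) (by linarith)
      rw [mul_comm (b ^ D.k l)]
      exact mul_le_mul_of_nonneg_left hp2 hb'.le
    refine this.trans ?_
    simp only [Datum.t]
    rcases hσ with rfl | rfl
    · nlinarith
    · nlinarith
  have hpos : 0 < D.t (D.k i) + σ * D.t (D.k l) := lt_of_lt_of_le (by positivity) hbi
  refine (abs_integral_cos_le hpos.ne' R).trans ?_
  rw [abs_of_pos hpos, div_le_iff₀ hpos]
  calc (2:ℝ) = D.c / (b - 1) * ((b - 1) / D.c * 2) := by field_simp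
    _ ≤ D.c / (b - 1) * (D.t (D.k i) + σ * D.t (D.k l)) := by gcongr

theorem exists_test_set (hb : 1 < b) (hg : 0 < g) (hε : ε ≤ 1 / 2) (hε' : KK b g * ε ≤ 1)
    (D : Datum b g ε) :
    ∃ S : Set ℝ, (bern b⁻¹).real Sᶜ ≤ (8 + 24 * KK b g) * ε ∧
      ∀ R : ℝ, 0 ≤ R →
        (volume.restrict (Set.Icc (-R) R)).real S ≤ 8 * ε * (2 * R + 1 / (b - 1)) := by
  have : IsProbabilityMeasure (bern b⁻¹) :=
    isProbability_bern (by positivity) (inv_lt_one_of_one_lt₀ hb)
  set t : ℕ → ℝ := fun i => D.t (D.k i) with ht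
  set η := 2 * (KK b g * ε) with hη
  have hKK : 0 < KK b g := by
    have : 0 < 1 - b⁻¹ := by linarith [inv_lt_one_of_one_lt₀ hb]
    unfold KK; positivity
  have hε0 := D.eps_pos
  have hη0 : 0 ≤ η := by rw [hη]; positivity
  have main : ∀ i < D.N, ∀ l < i,
      ∫ x, Real.cos (t i * x) * Real.cos (t l * x) ∂bern b⁻¹ ≤ (1 + η) * D.v ^ 2 := by
    intro i hi l hl
    simp_rw [cos_mul_cos']
    rw [integral_div, integral_add
      (integrable_of_continuous_bounded (by fun_prop) fun x => Real.abs_cos_le_one _)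
      (integrable_of_continuous_bounded (by fun_prop) fun x => Real.abs_cos_le_one _)]
    have h1 := abs_le.1 (D.pair_le hb hg hε hε' hi hl 1 (Or.inl rfl))
    have h2 := abs_le.1 (D.pair_le hb hg hε hε' hi hl (-1) (Or.inr rfl))
    rw [one_mul] at h1
    rw [neg_one_mul, ← sub_eq_add_neg] at h2
    simp only [ht]
    linarith [h1.2, h2.2]
  have h1 := moment_prob (μ := bern b⁻¹) t D.N hη0
    (fun i hi => D.mean_le hb hg hε hε' hi) (fun i hi l hl hil => by
      rcases Nat.lt_or_gt_of_ne hil with h | h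
      · simp_rw [mul_comm (Real.cos (t i * _))]
        exact main l hl i h
      · exact main i hi l h)
  set m : ℝ := D.N * D.v with hm
  have hNv := D.N_v hε
  have hN0 : (0:ℝ) < D.N := by
    rcases eq_or_lt_of_le (Nat.cast_nonneg (α := ℝ) D.N) with h | h
    · rw [← h] at hNv; linarith
    · exact h
  have hm2 : m ^ 2 = D.N * (D.N * D.v ^ 2) := by rw [hm]; ring
  have hm0 : 0 < m ^ 2 := by rw [hm2]; have := D.v_sq_pos; positivity
  have hNm : (D.N:ℝ) ≤ m ^ 2 * (2 * ε) := by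
    rw [hm2]; linarith [mul_le_mul_of_nonneg_left hNv hN0.le]
  refine ⟨{x | ((∑ i ∈ Finset.range D.N, Real.cos (t i * x)) - m) ^ 2 < m ^ 2 / 4}, ?_,
    fun R hR => ?_⟩
  · have hsub : {x | ((∑ i ∈ Finset.range D.N, Real.cos (t i * x)) - m) ^ 2 < m ^ 2 / 4}ᶜ =
        {x | m ^ 2 / 4 ≤ ((∑ i ∈ Finset.range D.N, Real.cos (t i * x)) - m) ^ 2} := by
      ext x; simp
    rw [hsub]
    refine le_of_mul_le_mul_left (h1.trans ?_) (by positivity : 0 < m ^ 2 / 4)
    rw [hη]
    linarith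
  · have : IsFiniteMeasure (volume.restrict (Set.Icc (-R) R) : Measure ℝ) :=
      isFiniteMeasure_restrict.2 measure_Icc_lt_top.ne
    refine (measureReal_mono (s₂ := {x | m ^ 2 / 4 ≤
      (∑ i ∈ Finset.range D.N, Real.cos (t i * x)) ^ 2}) ?_).trans ?_
    · intro x hx
      simp only [Set.mem_setOf_eq] at hx ⊢
      nlinarith [sq_nonneg (2 * (∑ i ∈ Finset.range D.N, Real.cos (t i * x)) - m)]
    have hb' : 0 < b - 1 := by linarith
    have h2 := moment_leb t D.N (D := b - 1) hR (κ := D.c / (b - 1))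
      (by rw [← mul_div_assoc]; gcongr; exact D.N_c) (by have := D.c_pos; positivity)
      (fun i _ l hl σ hσ => D.off_leb hb R hl σ hσ) m
    refine le_of_mul_le_mul_left (h2.trans ?_) (by positivity : 0 < m ^ 2 / 4)
    have h0 : 0 ≤ 2 * R + 1 / (b - 1) := by positivity
    linarith [mul_le_mul_of_nonneg_right hNm h0]

end

theorem mutuallySingular_of_data {b g : ℝ} (hb : 1 < b) (hg : 0 < g)
    (hD : ∀ ε > 0, Nonempty (Datum b g ε)) :
    Measure.MutuallySingular (bern b⁻¹) volume := by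
  set K := KK b g with hK
  have hKpos : 0 < K := by
    have : 0 < 1 - b⁻¹ := by linarith [inv_lt_one_of_one_lt₀ hb]
    rw [hK]; unfold KK; positivity
  have := isProbability_bern (lam := b⁻¹) (by positivity) (inv_lt_one_of_one_lt₀ hb)
  set e : ℕ → ℝ := fun n => min (1 / 2) (1 / K) * (1 / 2) ^ n with he
  have he0 : ∀ n, 0 < e n := fun n => by rw [he]; positivity
  have he1 : ∀ n, e n ≤ min (1 / 2) (1 / K) := fun n => by
    rw [he]
    exact mul_le_of_le_one_right (by positivity) (pow_le_one₀ (by norm_num) (by norm_num))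
  have hsum : Summable e := summable_geometric_two.mul_left _
  have key : ∀ n, ∃ S : Set ℝ, (bern b⁻¹).real Sᶜ ≤ (8 + 24 * K) * e n ∧
      ∀ R : ℝ, 0 ≤ R →
        (volume.restrict (Set.Icc (-R) R)).real S ≤ 8 * e n * (2 * R + 1 / (b - 1)) := by
    intro n
    obtain ⟨D⟩ := hD _ (he0 n)
    refine exists_test_set hb hg ((he1 n).trans (min_le_left _ _)) ?_ D
    calc K * e n ≤ K * (1 / K) := by gcongr; exact (he1 n).trans (min_le_right _ _)
      _ = 1 := by field_simp
  choose S hS1 hS2 using key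
  set T : Set ℝ := {x | ∀ᶠ n in atTop, x ∈ S n} with hT
  have tot : ∀ (ρ : Measure ℝ) [IsFiniteMeasure ρ] (s : ℕ → Set ℝ) (f : ℕ → ℝ),
      (∀ n, ρ.real (s n) ≤ f n) → Summable f → ∑' n, ρ (s n) ≠ ⊤ := by
    intro ρ _ s f hle hf
    have hf0 : ∀ n, 0 ≤ f n := fun n => measureReal_nonneg.trans (hle n)
    refine ne_top_of_le_ne_top ?_ (ENNReal.tsum_le_tsum fun n =>
      (show ρ (s n) ≤ ENNReal.ofReal (f n) by
        rw [← ofReal_measureReal (μ := ρ) (s := s n)]; exact ENNReal.ofReal_le_ofReal (hle n)))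
    rw [← ENNReal.ofReal_tsum_of_nonneg hf0 hf]
    exact ENNReal.ofReal_ne_top
  have h1 : bern b⁻¹ Tᶜ = 0 := by
    have h := ae_eventually_notMem (μ := bern b⁻¹) (s := fun n => (S n)ᶜ)
      (tot _ _ _ hS1 (hsum.mul_left _))
    rw [ae_iff] at h
    refine measure_mono_null ?_ h
    intro x hx
    simpa [hT] using hx
  have h2 : volume T = 0 := by
    have hR : ∀ R : ℕ, volume (T ∩ Set.Icc (-(R:ℝ)) R) = 0 := by
      intro R
      have : IsFiniteMeasure (volume.restrict (Set.Icc (-(R:ℝ)) R)) :=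
        isFiniteMeasure_restrict.2 measure_Icc_lt_top.ne
      have h := ae_eventually_notMem (μ := volume.restrict (Set.Icc (-(R:ℝ)) R)) (s := S)
        (tot _ _ _ (fun n => hS2 n R (Nat.cast_nonneg R)) ((hsum.mul_left _).mul_right _))
      rw [ae_iff] at h
      rw [← Measure.restrict_apply' measurableSet_Icc]
      refine measure_mono_null ?_ h
      intro x hx hx'
      obtain ⟨n, hn, hn'⟩ := (Filter.Eventually.and hx hx').exists
      exact hn' hn
    refine measure_mono_null ?_ (measure_iUnion_null hR)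
    intro x hx
    obtain ⟨R, hR'⟩ := exists_nat_ge |x|
    exact Set.mem_iUnion.2 ⟨R, hx, abs_le.1 hR'⟩
  exact Measure.MutuallySingular.mk h1 h2 (fun x _ => (em (x ∈ T)).elim Or.inr Or.inl)

end

end Vale.Agent.P105
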