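import Vale.Agent.P105.Salem
import Vale.Agent.P105.Test

/-!
The tower of frequencies: multiplying by `β^q - 1` with well chosen `q` cubes the size of the
unit-circle conjugate, while the window product only gets squared.
-/

namespace Vale.Agent.P105

noncomputable section

/-- `a` (the frequency), `b`, `C` (its conjugates), `S` (total shift), `P` (last Dirichlet range) -/
structure St where
  a : ℝ
  b : ℝ
  C : ℂ
  S : ℕ
  P : ℕ

def St.lo (s : St) (L : ℕ) : ℤ := -(2 * (s.S:ℤ) + L)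
def St.hi (s : St) (L : ℕ) : ℤ := (s.S:ℤ) + L

/-- absolute window product -/
def St.V (s : St) (L : ℕ) : ℝ :=
  ∏ j ∈ Finset.Icc (s.lo L) (s.hi L), |cs (s.a * β ^ j)|

/-- invariants of the tower -/
structure Good (γ : ℝ) (L : ℕ) (s : St) : Prop where
  intE : IntE s.a s.b s.C
  one_le_a : 1 ≤ s.a
  a_le : s.a ≤ A * β ^ s.S
  b_le : |s.b| ≤ A
  C_lower : |B| * β⁻¹ ^ s.S ≤ ‖s.C‖
  D_le : 3 * s.S + 2 * L + 2 ≤ 7 * s.P
  Pc : (s.P:ℝ) * ‖s.C‖ ≤ 1
  minimal : ∀ m, 1 ≤ m → m ≤ s.P → 7 * ‖s.C‖ ^ 2 < δ m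
  pt : ∀ j : ℤ, γ / 4 + 42 * ‖s.C‖ ≤ |cs (s.a * β ^ j)|
  c_le : ‖s.C‖ ≤ γ / 1000

lemma intE_step {a b : ℝ} {C : ℂ} (h : IntE a b C) (q : ℕ) :
    IntE (a * (β ^ q - 1)) (b * (β⁻¹ ^ q - 1)) (C * (z ^ q - 1)) := by
  intro j
  obtain ⟨p, hp⟩ := h (j + q)
  obtain ⟨p', hp'⟩ := h j
  refine ⟨p - p', ?_⟩
  push_cast
  rw [← hp, ← hp', neg_add, zpow_add₀ beta_ne, zpow_add₀ beta_ne, zpow_add₀ z_ne, zpow_natCast,
    zpow_natCast, zpow_neg β (q:ℤ), zpow_natCast, inv_pow]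
  rw [show C * (z ^ q - 1) * z ^ j = C * (z ^ j * z ^ q) - C * z ^ j by ring, Complex.sub_re]
  ring

lemma beta_sq_ge_two : 2 ≤ β ^ 2 := by
  have h := u_bounds
  have hs : 1 ≤ √(u ^ 2 - 4) := by
    rw [Real.one_le_sqrt]; nlinarith
  have hb : 1.65 ≤ β := by unfold β; linarith [h.1]
  nlinarith

lemma one_le_beta_pow_sub {q : ℕ} (hq : 2 ≤ q) : 1 ≤ β ^ q - 1 := by
  have : β ^ 2 ≤ β ^ q := pow_le_pow_right₀ beta_gt_one.le hq
  linarith [beta_sq_ge_two]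

variable {γ : ℝ} {L : ℕ} {s : St}

lemma Good.c_pos (h : Good γ L s) : 0 < ‖s.C‖ := by
  refine lt_of_lt_of_le (mul_pos (abs_pos.2 B_ne) ?_) h.C_lower
  have := beta_pos
  positivity

lemma Good.A_small (h : Good γ L s) (hL : A * β⁻¹ ^ L ≤ |B|) :
    A * β⁻¹ ^ (s.S + L) ≤ ‖s.C‖ := by
  refine le_trans ?_ h.C_lower
  rw [pow_add, show A * (β⁻¹ ^ s.S * β⁻¹ ^ L) = (A * β⁻¹ ^ L) * β⁻¹ ^ s.S by ring]
  have := beta_pos
  exact mul_le_mul_of_nonneg_right hL (by positivity)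

lemma Good.tail (h : Good γ L s) (hL : A * β⁻¹ ^ L ≤ |B|) (j : ℤ) :
    s.a * β ^ j ≤ ‖s.C‖ * β ^ (j - s.lo L) := by
  have hj := zpow_pos beta_pos j
  calc s.a * β ^ j ≤ A * β ^ s.S * β ^ j := mul_le_mul_of_nonneg_right h.a_le hj.le
    _ = (A * β⁻¹ ^ (s.S + L)) * β ^ (j - s.lo L) := by
      rw [inv_pow, ← zpow_natCast β s.S, ← zpow_natCast β (s.S + L), ← zpow_neg, mul_assoc,
        mul_assoc, ← zpow_add₀ beta_ne, ← zpow_add₀ beta_ne]
      congr 2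
      simp only [St.lo]; push_cast; ring
    _ ≤ _ := mul_le_mul_of_nonneg_right (h.A_small hL) (zpow_nonneg beta_pos.le _)

lemma Good.outside (h : Good γ L s) (hL : A * β⁻¹ ^ L ≤ |B|) (j : ℤ)
    (hj : j < s.lo L ∨ s.hi L < j) : Near (s.a * β ^ j) (3 * ‖s.C‖) := by
  have hc := h.c_pos
  rcases hj with hj | hj
  · refine (near_of_abs (η := ‖s.C‖) ?_).mono (by linarith)
    rw [abs_of_nonneg (mul_nonneg (by linarith [h.one_le_a]) (zpow_nonneg beta_pos.le _))]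
    refine (h.tail hL j).trans ?_
    refine mul_le_of_le_one_right hc.le ?_
    exact zpow_le_one_of_nonpos₀ beta_gt_one.le (by omega)
  · obtain ⟨p, hp⟩ := h.intE j
    refine ⟨p, ?_⟩
    have e : s.a * β ^ j - p = -(s.b * β ^ (-j) + 2 * (s.C * z ^ j).re) := by linarith
    rw [e, abs_neg]
    refine (abs_add_le _ _).trans ?_
    have h1 : |s.b * β ^ (-j)| ≤ ‖s.C‖ := by
      rw [abs_mul, abs_of_pos (zpow_pos beta_pos _)]
      refine le_trans ?_ (h.A_small hL)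
      refine mul_le_mul h.b_le ?_ (zpow_nonneg beta_pos.le _) A_pos.le
      rw [inv_pow, ← zpow_natCast, ← zpow_neg]
      refine zpow_le_zpow_right₀ beta_gt_one.le ?_
      simp only [St.hi] at hj
      push_cast
      omega
    have h2 : |2 * (s.C * z ^ j).re| ≤ 2 * ‖s.C‖ := by
      rw [abs_mul, abs_of_pos (by norm_num : (0:ℝ) < 2)]
      gcongr
      refine (Complex.abs_re_le_norm _).trans ?_
      rw [norm_mul, norm_zpow, norm_z, one_zpow, mul_one]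
    linarith

lemma exp_le_one_sub_pow {x : ℝ} (h0 : 0 ≤ x) (h1 : x ≤ 1 / 2) (n : ℕ) :
    Real.exp (-(2 * x * n)) ≤ (1 - x) ^ n := by
  have h : Real.exp (-(2 * x)) ≤ 1 - x := by
    rw [Real.exp_neg, inv_le_iff_one_le_mul₀ (Real.exp_pos _)]
    have := Real.add_one_le_exp (2 * x)
    nlinarith
  calc Real.exp (-(2 * x * n)) = Real.exp (-(2 * x)) ^ n := by
        rw [← Real.exp_nat_mul]; congr 1; ring
    _ ≤ (1 - x) ^ n := pow_le_pow_left₀ (Real.exp_pos _).le h n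

lemma prod_le_prod_inter (W I : Finset ℤ) (f : ℤ → ℝ) (h0 : ∀ j, 0 ≤ f j) (h1 : ∀ j, f j ≤ 1) :
    ∏ j ∈ W, f j ≤ ∏ j ∈ I, (if j ∈ W then f j else 1) := by
  rw [Finset.prod_ite_mem, ← Finset.prod_sdiff (Finset.inter_subset_right : I ∩ W ⊆ W)]
  exact mul_le_of_le_one_left (Finset.prod_nonneg fun _ _ => h0 _)
    (Finset.prod_le_one (fun _ _ => h0 _) (fun _ _ => h1 _))

/-- loss factor per step of the tower -/
def κ (γ : ℝ) : ℝ := Real.exp (-(20160 + 2352 / γ))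

lemma step_key (hc1 : ‖s.C‖ ≤ γ / 1000) (hγ1 : γ ≤ 1) (hL : A * β⁻¹ ^ L ≤ |B|)
    (h : Good γ L s) {q : ℕ} (hqD : 3 * s.S + 2 * L + 2 < q) (j : ℤ) :
    (j ∈ Finset.Icc (s.lo L) (s.hi L) →
      |cs (s.a * β ^ j)| - 21 * ‖s.C‖ ≤ |cs (s.a * (β ^ q - 1) * β ^ j)|) ∧
    (j + q ∈ Finset.Icc (s.lo L) (s.hi L) →
      |cs (s.a * β ^ (j + q))| - 21 * ‖s.C‖ ≤ |cs (s.a * (β ^ q - 1) * β ^ j)|) ∧
    (j ∉ Finset.Icc (s.lo L) (s.hi L) → j + q ∉ Finset.Icc (s.lo L) (s.hi L) →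
      1 - 720 * ‖s.C‖ ^ 2 ≤ |cs (s.a * (β ^ q - 1) * β ^ j)|) := by
  set c := ‖s.C‖ with hc
  set f : ℤ → ℝ := fun j => |cs (s.a * β ^ j)| with hf
  set lo := s.lo L with hlo
  set hi := s.hi L with hhi
  have e : (s.a * (β ^ q - 1)) * β ^ j = s.a * β ^ (j + q) + -(s.a * β ^ j) := by
    rw [zpow_add₀ beta_ne, zpow_natCast]; ring
  have out : ∀ i, i ∉ Finset.Icc lo hi → Near (s.a * β ^ i) (3 * c) := by
    intro i hi'
    refine h.outside hL i ?_
    simp only [Finset.mem_Icc] at hi'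
    omega
  have hqD' : hi - lo < q := by simp only [hlo, hhi, St.lo, St.hi]; omega
  refine ⟨fun hj => ?_, fun hj => ?_, fun hj hj' => ?_⟩
  · have hn : Near (s.a * β ^ (j + q)) (3 * c) :=
      out _ (by simp only [Finset.mem_Icc] at hj ⊢; omega)
    have h1 := hn.cs_diff (-(s.a * β ^ j))
    rw [cs_neg, add_comm, ← e] at h1
    have h2 := abs_sub_abs_le_abs_sub (cs (s.a * β ^ j)) (cs (s.a * (β ^ q - 1) * β ^ j))
    rw [abs_sub_comm (cs (s.a * β ^ j))] at h2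
    linarith
  · have hn : Near (-(s.a * β ^ j)) (3 * c) :=
      (out _ (by simp only [Finset.mem_Icc] at hj ⊢; omega)).neg
    have h1 := hn.cs_diff (s.a * β ^ (j + q))
    rw [← e] at h1
    have h2 := abs_sub_abs_le_abs_sub (cs (s.a * β ^ (j + q))) (cs (s.a * (β ^ q - 1) * β ^ j))
    rw [abs_sub_comm (cs (s.a * β ^ (j + q)))] at h2
    linarith
  · have h1 := ((out _ hj').add (out _ hj).neg).cs_one
    rw [← e] at h1
    have h2 := abs_le.1 h1
    have h3 := le_abs_self (cs (s.a * (β ^ q - 1) * β ^ j))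
    nlinarith

lemma step_pt (hc1 : ‖s.C‖ ≤ γ / 1000) (hγ1 : γ ≤ 1) (hL : A * β⁻¹ ^ L ≤ |B|)
    (h : Good γ L s) {q : ℕ} (hqD : 3 * s.S + 2 * L + 2 < q) {c' : ℝ} (hc' : c' ≤ ‖s.C‖ / 2)
    (j : ℤ) : γ / 4 + 42 * c' ≤ |cs (s.a * (β ^ q - 1) * β ^ j)| := by
  obtain ⟨k1, k2, k3⟩ := step_key hc1 hγ1 hL h hqD j
  have h0 := h.c_pos
  by_cases hj : j ∈ Finset.Icc (s.lo L) (s.hi L)
  · linarith [k1 hj, h.pt j]
  · by_cases hj' : j + q ∈ Finset.Icc (s.lo L) (s.hi L)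
    · linarith [k2 hj', h.pt (j + q)]
    · have h2 : ‖s.C‖ ^ 2 ≤ ‖s.C‖ / 1000 := by
        calc ‖s.C‖ ^ 2 = ‖s.C‖ * ‖s.C‖ := by ring
          _ ≤ ‖s.C‖ * (1 / 1000) := by gcongr; linarith
          _ = ‖s.C‖ / 1000 := by ring
      linarith [k3 hj hj']

lemma step_window (hγ : 0 < γ) (hγ1 : γ ≤ 1) (hL : A * β⁻¹ ^ L ≤ |B|)
    (h : Good γ L s) {q : ℕ} (hqD : 3 * s.S + 2 * L + 2 < q) (I : Finset ℤ)
    (hIc : (I.card : ℝ) * ‖s.C‖ ^ 2 ≤ 14) :
    κ γ * s.V L ^ 2 ≤ ∏ j ∈ I, |cs (s.a * (β ^ q - 1) * β ^ j)| := by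
  set c := ‖s.C‖ with hc
  have hc0 : 0 < c := h.c_pos
  have hc1 : c ≤ γ / 1000 := h.c_le
  have hc2 : c ^ 2 ≤ c / 1000 := by
    calc c ^ 2 = c * c := by ring
      _ ≤ c * (1 / 1000) := by gcongr; linarith
      _ = c / 1000 := by ring
  set f : ℤ → ℝ := fun j => |cs (s.a * β ^ j)| with hf
  set lo := s.lo L with hlo
  set hi := s.hi L with hhi
  set e := 84 * c / γ with he
  have he0 : 0 ≤ e := by rw [he]; positivity
  have he1 : e ≤ 1 / 2 := by rw [he, div_le_iff₀ hγ]; linarith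
  set o := 720 * c ^ 2 with ho
  have ho0 : 0 ≤ o := by positivity
  have ho1 : o ≤ 1 / 2 := by rw [ho]; linarith
  set g : ℤ → ℝ := fun j => f j * (1 - e) with hg
  have hg0 : ∀ j, 0 ≤ g j := fun j => mul_nonneg (abs_nonneg _) (by linarith)
  have hg1 : ∀ j, g j ≤ 1 := fun j =>
    mul_le_one₀ (abs_cs_le _) (by linarith) (by linarith)
  set W := Finset.Icc lo hi with hW
  set W2 := Finset.Icc (lo + -(q:ℤ)) (hi + -(q:ℤ)) with hW2
  have hW2m : ∀ j, j ∈ W2 ↔ j + q ∈ W := by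
    intro j; simp only [hW2, hW, Finset.mem_Icc]; omega
  have hpt : ∀ j ∈ I, (if j ∈ W then g j else 1) * (if j ∈ W2 then g (j + q) else 1) * (1 - o)
      ≤ |cs (s.a * (β ^ q - 1) * β ^ j)| := by
    intro j _
    obtain ⟨k1, k2, k3⟩ := step_key hc1 hγ1 hL h hqD j
    have hgf : ∀ i, g i ≤ f i - 21 * c := by
      intro i
      have h1 : 21 * c ≤ e * f i := by
        calc 21 * c = e * (γ / 4) := by rw [he]; field_simp; ring
          _ ≤ e * f i := by gcongr; have := h.pt i; simp only [hf]; linarith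
      simp only [hg]; linarith
    have hsep : j ∈ W → j + q ∉ W := by
      simp only [hW, hlo, hhi, St.lo, St.hi, Finset.mem_Icc]; omega
    by_cases hj : j ∈ W
    · rw [if_pos hj, if_neg (fun hh => hsep hj ((hW2m j).1 hh)), mul_one]
      have := k1 hj
      have := hgf j
      nlinarith [hg0 j]
    · rw [if_neg hj, one_mul]
      by_cases hj' : j ∈ W2
      · rw [if_pos hj']
        have := k2 ((hW2m j).1 hj')
        have := hgf (j + q)
        nlinarith [hg0 (j + q)]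
      · rw [if_neg hj', one_mul]
        exact k3 hj (fun hh => hj' ((hW2m j).2 hh))
  have hprod : (∏ j ∈ W, g j) * (∏ j ∈ W, g j) * (1 - o) ^ I.card ≤ ∏ j ∈ I, |cs (s.a * (β ^ q - 1) * β ^ j)| := by
    have hge : 0 ≤ 1 - o := by linarith
    refine le_trans ?_ (Finset.prod_le_prod
      (fun j _ => mul_nonneg (mul_nonneg ?_ ?_) hge) hpt)
    · have e3 : ∏ j ∈ I, (if j ∈ W then g j else 1) * (if j ∈ W2 then g (j + q) else 1) * (1 - o) =
          (∏ j ∈ I, if j ∈ W then g j else 1) * (∏ j ∈ I, if j ∈ W2 then g (j + q) else 1) *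
            (1 - o) ^ I.card := by
        rw [Finset.prod_mul_distrib, Finset.prod_mul_distrib, Finset.prod_const]
      rw [e3]
      apply mul_le_mul_of_nonneg_right _ (pow_nonneg hge _)
      refine mul_le_mul (prod_le_prod_inter W I g hg0 hg1) ?_
        (Finset.prod_nonneg fun _ _ => hg0 _) (Finset.prod_nonneg fun j _ => ?_)
      · refine le_trans (le_of_eq ?_)
          (prod_le_prod_inter W2 I (fun j => g (j + q)) (fun _ => hg0 _) (fun _ => hg1 _))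
        rw [hW2, ← prod_Icc_shift g lo hi (-(q:ℤ))]
        exact Finset.prod_congr rfl fun j _ => by rw [sub_neg_eq_add]
      · split_ifs
        exacts [hg0 _, zero_le_one]
    · split_ifs
      exacts [hg0 _, zero_le_one]
    · split_ifs
      exacts [hg0 _, zero_le_one]
  refine le_trans ?_ hprod
  have hgV : ∏ j ∈ W, g j = s.V L * (1 - e) ^ W.card := by
    rw [hg, Finset.prod_mul_distrib, Finset.prod_const]; rfl
  have hV0 : 0 ≤ s.V L := Finset.prod_nonneg fun _ _ => abs_nonneg _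
  have hWc : (W.card : ℝ) * c ≤ 7 := by
    have h1 : W.card ≤ 7 * s.P := by
      simp only [hW, hlo, hhi, St.lo, St.hi, Int.card_Icc]
      have := h.D_le; omega
    have h1' : (W.card:ℝ) ≤ 7 * s.P := by exact_mod_cast h1
    calc (W.card:ℝ) * c ≤ 7 * s.P * c := by gcongr
      _ ≤ 7 := by linarith [h.Pc]
  have p1 : Real.exp (-(1176 / γ)) ≤ (1 - e) ^ W.card := by
    refine le_trans (Real.exp_le_exp.2 ?_) (exp_le_one_sub_pow he0 he1 _)
    rw [neg_le_neg_iff, he]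
    calc 2 * (84 * c / γ) * (W.card:ℝ) = 168 / γ * ((W.card:ℝ) * c) := by ring
      _ ≤ 168 / γ * 7 := by gcongr
      _ = 1176 / γ := by ring
  have p2 : Real.exp (-20160) ≤ (1 - o) ^ I.card := by
    refine le_trans (Real.exp_le_exp.2 ?_) (exp_le_one_sub_pow ho0 ho1 _)
    rw [neg_le_neg_iff, ho]
    linarith
  have hκ : κ γ = Real.exp (-20160) * (Real.exp (-(1176 / γ)) * Real.exp (-(1176 / γ))) := by
    rw [κ, ← Real.exp_add, ← Real.exp_add]; ring_nf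
  rw [hgV, hκ]
  calc Real.exp (-20160) * (Real.exp (-(1176 / γ)) * Real.exp (-(1176 / γ))) * s.V L ^ 2
      ≤ (1 - o) ^ I.card * ((1 - e) ^ W.card * (1 - e) ^ W.card) * s.V L ^ 2 := by
        apply mul_le_mul_of_nonneg_right _ (sq_nonneg _)
        refine mul_le_mul p2 (mul_le_mul p1 p1 (Real.exp_pos _).le ?_) (by positivity) ?_
        · exact pow_nonneg (by linarith) _
        · exact pow_nonneg (by linarith) _
    _ = _ := by ring

lemma step (hγ : 0 < γ) (hγ1 : γ ≤ 1) (hL : A * β⁻¹ ^ L ≤ |B|) (h : Good γ L s) :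
    ∃ s' : St, Good γ L s' ∧ ‖s'.C‖ ≤ 49 * ‖s.C‖ ^ 3 ∧ (s'.P:ℝ) * ‖s'.C‖ ≤ 100 * ‖s.C‖ ∧
      κ γ * s.V L ^ 2 ≤ s'.V L := by
  set c := ‖s.C‖ with hc
  have hc0 : 0 < c := h.c_pos
  have hc1 : c ≤ γ / 1000 := h.c_le
  have hc2 : c ^ 2 ≤ c / 1000 := by nlinarith
  set Q : ℕ := ⌈1 / c ^ 2⌉₊ with hQ
  have hQ1 : 1 / c ^ 2 ≤ Q := Nat.le_ceil _
  have hQ2 : (Q:ℝ) * c ^ 2 ≤ 2 := by
    have h1 : (Q:ℝ) < 1 / c ^ 2 + 1 := Nat.ceil_lt_add_one (by positivity)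
    have h2 : (Q:ℝ) * c ^ 2 ≤ (1 / c ^ 2 + 1) * c ^ 2 := by gcongr
    rw [add_mul, one_div_mul_cancel (by positivity), one_mul] at h2
    linarith
  have hQpos : 0 < Q := by
    have : (0:ℝ) < Q := lt_of_lt_of_le (by positivity) hQ1
    exact_mod_cast this
  have hPQ : 7 * s.P ≤ Q := by
    have h1 : 7 * (s.P:ℝ) ≤ 1 / c ^ 2 := by
      rw [le_div_iff₀ (by positivity)]
      have : (s.P:ℝ) * c * c ≤ 1 * c := by gcongr; exact h.Pc
      nlinarith
    exact_mod_cast h1.trans hQ1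
  obtain ⟨bq, hbmem, hbmin⟩ := (Finset.Icc 1 Q).exists_min_image δ ⟨1, by simp; omega⟩
  rw [Finset.mem_Icc] at hbmem
  have hδb : δ bq ≤ 7 * c ^ 2 := by
    obtain ⟨q, hq1, hq2, hq3⟩ := dirichlet hQpos
    refine (hbmin q (Finset.mem_Icc.2 ⟨hq1, hq2⟩)).trans (hq3.trans ?_)
    rw [div_le_iff₀ (by exact_mod_cast hQpos)]
    rw [div_le_iff₀ (by positivity)] at hQ1
    linarith
  have hbP : s.P < bq := by
    by_contra hcon
    exact absurd hδb (not_le.2 (h.minimal bq hbmem.1 (not_lt.1 hcon)))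
  set D := 3 * s.S + 2 * L + 2 with hD
  set n := D / bq + 1 with hn
  have hbq : 0 < bq := hbmem.1
  have hn7 : n ≤ 7 := by
    have : D / bq < 7 := by
      rw [Nat.div_lt_iff_lt_mul hbq]
      have := h.D_le; omega
    omega
  set q := n * bq with hq
  have hqD : D < q := by
    rw [hq, hn]
    have := Nat.lt_div_mul_add hbq (a := D)
    rw [add_mul, one_mul]; omega
  have hq2Q : q ≤ 2 * Q := by
    rw [hq, hn, add_mul, one_mul]
    have := Nat.div_mul_le_self D bq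
    have := h.D_le
    omega
  have hδq : δ q ≤ 49 * c ^ 2 := by
    refine (delta_mul n bq).trans ?_
    have : (n:ℝ) ≤ 7 := by exact_mod_cast hn7
    have := delta_nonneg bq
    nlinarith
  set s' : St := ⟨s.a * (β ^ q - 1), s.b * (β⁻¹ ^ q - 1), s.C * (z ^ q - 1), s.S + q, Q⟩ with hs'
  have hC' : ‖s'.C‖ = c * δ q := by simp [hs', hc, δ]
  have hc' : ‖s'.C‖ ≤ 49 * c ^ 3 := by
    rw [hC']
    calc c * δ q ≤ c * (49 * c ^ 2) := by gcongr
      _ = 49 * c ^ 3 := by ring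
  have hc'2 : ‖s'.C‖ ≤ c / 2 := by
    refine hc'.trans ?_
    nlinarith
  refine ⟨s', ⟨intE_step h.intE q, ?_, ?_, ?_, ?_, ?_, ?_, ?_, fun j => ?_, ?_⟩, hc', ?_, ?_⟩
  · simp only [hs']
    have := one_le_beta_pow_sub (q := q) (by omega)
    nlinarith [h.one_le_a]
  · simp only [hs']
    rw [pow_add, ← mul_assoc]
    exact mul_le_mul h.a_le (by linarith) (by linarith [one_le_beta_pow_sub (q := q) (by omega)])
      (by have := A_pos; have := beta_pos; positivity)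
  · simp only [hs']
    rw [abs_mul]
    have h0 : 0 ≤ β⁻¹ ^ q := by have := beta_pos; positivity
    have h1 : β⁻¹ ^ q ≤ 1 := pow_le_one₀ (by have := beta_pos; positivity) beta_inv_lt_one.le
    refine (mul_le_of_le_one_right (abs_nonneg _) ?_).trans h.b_le
    rw [abs_le]; constructor <;> linarith
  · rw [hC']
    simp only [hs']
    rw [pow_add, ← mul_assoc]
    exact mul_le_mul h.C_lower (delta_lower (by omega)) (by have := beta_pos; positivity) hc0.le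
  · simp only [hs']
    have := h.D_le
    omega
  · calc (s'.P:ℝ) * ‖s'.C‖ ≤ (Q:ℝ) * (49 * c ^ 3) := by simp only [hs'] at hc' ⊢; gcongr
      _ = ((Q:ℝ) * c ^ 2) * (49 * c) := by ring
      _ ≤ 2 * (49 * c) := by gcongr
      _ ≤ 1 := by linarith
  · intro m hm1 hm2
    have h1 := hbmin m (Finset.mem_Icc.2 ⟨hm1, hm2⟩)
    refine lt_of_lt_of_le ?_ h1
    rw [hC']
    have h3 : δ q ≤ 7 * δ bq := by
      refine (delta_mul n bq).trans ?_
      have : (n:ℝ) ≤ 7 := by exact_mod_cast hn7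
      have := delta_nonneg bq
      nlinarith
    have hb0 := delta_pos hbmem.1
    have hq0 := delta_nonneg q
    calc 7 * (c * δ q) ^ 2 ≤ 7 * (c * (7 * δ bq)) ^ 2 := by gcongr
      _ = (343 * c ^ 2 * δ bq) * δ bq := by ring
      _ < 1 * δ bq := by
        gcongr
        nlinarith
      _ = δ bq := one_mul _
  · exact step_pt hc1 hγ1 hL h hqD hc'2 j
  · linarith
  · calc (s'.P:ℝ) * ‖s'.C‖ ≤ (Q:ℝ) * (49 * c ^ 3) := by simp only [hs'] at hc' ⊢; gcongr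
      _ = ((Q:ℝ) * c ^ 2) * (49 * c) := by ring
      _ ≤ 2 * (49 * c) := by gcongr
      _ ≤ 100 * c := by linarith
  · refine step_window hγ hγ1 hL h hqD _ ?_
    have h1 : (Finset.Icc (s'.lo L) (s'.hi L)).card ≤ 7 * Q := by
      simp only [hs', St.lo, St.hi, Int.card_Icc]
      have := h.D_le
      omega
    have h1' : ((Finset.Icc (s'.lo L) (s'.hi L)).card:ℝ) ≤ 7 * Q := by exact_mod_cast h1
    calc _ ≤ 7 * (Q:ℝ) * c ^ 2 := mul_le_mul_of_nonneg_right h1' (sq_nonneg c)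
      _ ≤ 14 := by linarith

lemma exists_start {γ : ℝ} (hγ : 0 < γ) (hγ1 : γ ≤ 1)
    (hbase : ∀ j : ℤ, γ ≤ |cs (A * β ^ j)|) (L : ℕ) : ∃ s : St, Good γ L s := by
  have hA := A_pos
  obtain ⟨M, hM⟩ := exists_pow_lt_of_lt_one (show 0 < γ / (100 * A) by positivity) beta_inv_lt_one
  have hM' : A * β⁻¹ ^ M ≤ γ / 100 := by
    calc A * β⁻¹ ^ M ≤ A * (γ / (100 * A)) := by gcongr
      _ = γ / 100 := by field_simp
  obtain ⟨i, himem, himin⟩ := (Finset.Icc 1 (2 * M + 1)).exists_min_image δ ⟨1, by simp⟩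
  have hi0 : 0 < δ i := delta_pos (Finset.mem_Icc.1 himem).1
  set ε := min (δ i) (γ / 1000) with hε
  have hε0 : 0 < ε := lt_min hi0 (by positivity)
  obtain ⟨Q, hQ⟩ := exists_nat_gt (max (7 / ε) (L + 1))
  have hQ1 : 7 / ε < Q := lt_of_le_of_lt (le_max_left _ _) hQ
  have hQL : L + 1 < Q := by
    have : ((L:ℝ) + 1) < Q := lt_of_le_of_lt (le_max_right _ _) hQ
    exact_mod_cast this
  have hQpos : 0 < Q := by omega
  obtain ⟨q, hqmem, hqmin⟩ := (Finset.Icc 1 Q).exists_min_image δ ⟨1, by simp; omega⟩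
  rw [Finset.mem_Icc] at hqmem
  have hδ : δ q < ε ∧ δ q ≤ 7 / Q := by
    obtain ⟨r, hr1, hr2, hr3⟩ := dirichlet hQpos
    have h1 := (hqmin r (Finset.mem_Icc.2 ⟨hr1, hr2⟩)).trans hr3
    refine ⟨lt_of_le_of_lt h1 ?_, h1⟩
    rw [div_lt_iff₀ hε0] at hQ1
    rw [div_lt_iff₀ (by exact_mod_cast hQpos)]
    linarith
  have hqM : 2 * M + 1 < q := by
    by_contra hcon
    have := himin q (Finset.mem_Icc.2 ⟨hqmem.1, not_lt.1 hcon⟩)
    linarith [hδ.1, min_le_left (δ i) (γ / 1000)]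
  have hδγ : δ q ≤ γ / 1000 := hδ.1.le.trans (min_le_right _ _)
  have hB : |B| ≤ 0.03 := by
    rw [abs_le]; constructor <;> linarith [B_bounds.1, B_bounds.2]
  set s : St := ⟨A * (β ^ q - 1), A * (β⁻¹ ^ q - 1), (B:ℂ) * (z ^ q - 1), q, Q⟩ with hs
  have hc : ‖s.C‖ = |B| * δ q := by simp [hs, δ]
  have hcδ : ‖s.C‖ ≤ 0.03 * δ q := by
    rw [hc]; exact mul_le_mul_of_nonneg_right hB (delta_nonneg q)
  have hpos : 0 ≤ δ q := delta_nonneg q
  refine ⟨s, intE_step intE_base q, ?_, ?_, ?_, ?_, ?_, ?_, ?_, fun j => ?_, ?_⟩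
  · simp only [hs]
    have := one_le_beta_pow_sub (q := q) (by omega)
    nlinarith [A_bounds.1]
  · simp only [hs]
    gcongr
    linarith
  · simp only [hs]
    rw [abs_mul, abs_of_pos hA]
    have h0 : 0 ≤ β⁻¹ ^ q := by have := beta_pos; positivity
    have h1 : β⁻¹ ^ q ≤ 1 := pow_le_one₀ (by have := beta_pos; positivity) beta_inv_lt_one.le
    refine mul_le_of_le_one_right hA.le ?_
    rw [abs_le]; constructor <;> linarith
  · rw [hc]; simp only [hs]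
    exact mul_le_mul_of_nonneg_left (delta_lower hqmem.1) (abs_nonneg _)
  · simp only [hs]; omega
  · calc (s.P:ℝ) * ‖s.C‖ ≤ (Q:ℝ) * (0.03 * (7 / Q)) := by
          simp only [hs] at hcδ ⊢
          gcongr
          exact hcδ.trans (by linarith [hδ.2])
      _ = 0.21 := by field_simp; norm_num
      _ ≤ 1 := by norm_num
  · intro m hm1 hm2
    refine lt_of_lt_of_le ?_ (hqmin m (Finset.mem_Icc.2 ⟨hm1, hm2⟩))
    have hq0 := delta_pos hqmem.1
    have : ‖s.C‖ ^ 2 ≤ (0.03 * δ q) ^ 2 := pow_le_pow_left₀ (norm_nonneg _) hcδ 2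
    nlinarith
  · -- level one pointwise bound
    have e : s.a * β ^ j = A * β ^ (j + q) + -(A * β ^ j) := by
      simp only [hs]
      rw [zpow_add₀ beta_ne, zpow_natCast]; ring
    have small : ∀ i : ℤ, i ≤ -(M:ℤ) → |A * β ^ i| ≤ γ / 100 := by
      intro i hi
      rw [abs_of_pos (mul_pos hA (zpow_pos beta_pos _))]
      refine le_trans ?_ hM'
      gcongr
      rw [inv_pow, ← zpow_natCast, ← zpow_neg]
      exact zpow_le_zpow_right₀ beta_gt_one.le hi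
    have hc' : ‖s.C‖ ≤ γ / 1000 := by linarith
    by_cases hj : j ≤ -(M:ℤ)
    · have h1 := (near_of_abs (small j hj)).neg.cs_diff (A * β ^ (j + q))
      rw [← e] at h1
      have h2 := abs_sub_abs_le_abs_sub (cs (A * β ^ (j + q))) (cs (s.a * β ^ j))
      rw [abs_sub_comm (cs (A * β ^ (j + q)))] at h2
      have := hbase (j + q)
      linarith
    · obtain ⟨p1, hp1⟩ := intE_base j
      obtain ⟨p2, hp2⟩ := intE_base (j + q)
      set y : ℝ := -(A * β ^ (-(j + q))) - 2 * ((B:ℂ) * z ^ (j + q) - (B:ℂ) * z ^ j).re with hy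
      have e2 : s.a * β ^ j = (A * β ^ (-j) + y) + ((p2 - p1 : ℤ) : ℝ) := by
        rw [e, hy, Complex.sub_re]; push_cast; linarith
      have hny : Near y (γ / 100 + 2 * (0.03 * δ q)) := by
        refine near_of_abs ?_
        rw [hy]
        refine (abs_sub _ _).trans ?_
        rw [abs_neg]
        refine add_le_add (small _ (by omega)) ?_
        rw [abs_mul, abs_of_pos (by norm_num : (0:ℝ) < 2)]
        · gcongr
          refine (Complex.abs_re_le_norm _).trans ?_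
          rw [zpow_add₀ z_ne, zpow_natCast,
            show (B:ℂ) * (z ^ j * z ^ q) - (B:ℂ) * z ^ j = (B:ℂ) * z ^ j * (z ^ q - 1) by ring,
            norm_mul, norm_mul, norm_zpow, norm_z, one_zpow, mul_one, Complex.norm_real,
            Real.norm_eq_abs]
          exact mul_le_mul_of_nonneg_right hB hpos
      have h1 := hny.cs_diff (A * β ^ (-j))
      rw [← cs_add_int (A * β ^ (-j) + y) (p2 - p1), ← e2] at h1
      have h2 := abs_sub_abs_le_abs_sub (cs (A * β ^ (-j))) (cs (s.a * β ^ j))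
      rw [abs_sub_comm (cs (A * β ^ (-j)))] at h2
      have := hbase (-j)
      linarith
  · linarith

lemma tower {γ : ℝ} (hγ : 0 < γ) (hγ1 : γ ≤ 1) {L : ℕ} (hL : A * β⁻¹ ^ L ≤ |B|) {s : St}
    (hs : Good γ L s) (r : ℕ) :
    ∃ t : St, Good γ L t ∧ 7 * ‖t.C‖ ≤ (7 * ‖s.C‖) ^ 3 ^ r ∧
      (κ γ * s.V L) ^ 2 ^ r ≤ κ γ * t.V L := by
  have hκ : 0 < κ γ := Real.exp_pos _
  induction r with
  | zero => exact ⟨s, hs, by simp, by simp⟩
  | succ r ih =>
    obtain ⟨t, ht, h1, h2⟩ := ih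
    obtain ⟨t', ht', h3, -, h4⟩ := step hγ hγ1 hL ht
    refine ⟨t', ht', ?_, ?_⟩
    · calc 7 * ‖t'.C‖ ≤ (7 * ‖t.C‖) ^ 3 := by linarith [show (7 * ‖t.C‖) ^ 3 = 343 * ‖t.C‖ ^ 3 by ring]
        _ ≤ ((7 * ‖s.C‖) ^ 3 ^ r) ^ 3 := pow_le_pow_left₀ (by positivity) h1 3
        _ = _ := by rw [← pow_mul, ← pow_succ]
    · have hV : 0 ≤ s.V L := Finset.prod_nonneg fun _ _ => abs_nonneg _
      calc (κ γ * s.V L) ^ 2 ^ (r + 1) = ((κ γ * s.V L) ^ 2 ^ r) ^ 2 := by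
            rw [← pow_mul, ← pow_succ]
        _ ≤ (κ γ * t.V L) ^ 2 := pow_le_pow_left₀ (by positivity) h2 2
        _ = κ γ * (κ γ * t.V L ^ 2) := by ring
        _ ≤ κ γ * t'.V L := mul_le_mul_of_nonneg_left h4 hκ.le

lemma exists_exponent {x w K : ℝ} (hx0 : 0 ≤ x) (hx1 : x < 1) (hw : 0 < w) (hK : 0 < K) :
    ∃ r : ℕ, x ^ 3 ^ r ≤ K * w ^ 2 ^ r := by
  obtain ⟨M, hM⟩ := exists_pow_lt_of_lt_one hw hx1
  obtain ⟨r₁, hr₁⟩ := pow_unbounded_of_one_lt ((M:ℝ) + 1) (show (1:ℝ) < 3 / 2 by norm_num)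
  obtain ⟨r₂, hr₂⟩ := exists_pow_lt_of_lt_one hK hx1
  set r := max r₁ r₂ with hr
  refine ⟨r, ?_⟩
  have h1 : (M + 1) * 2 ^ r ≤ 3 ^ r := by
    have h : ((M:ℝ) + 1) ≤ (3 / 2) ^ r :=
      hr₁.le.trans (pow_le_pow_right₀ (by norm_num) (le_max_left _ _))
    rw [div_pow, le_div_iff₀ (by positivity)] at h
    exact_mod_cast h
  calc x ^ 3 ^ r ≤ x ^ ((M + 1) * 2 ^ r) := pow_le_pow_of_le_one hx0 hx1.le h1
    _ = x ^ 2 ^ r * (x ^ M) ^ 2 ^ r := by rw [← pow_mul, ← pow_add]; ring_nf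
    _ ≤ K * w ^ 2 ^ r := by
      refine mul_le_mul ?_ (pow_le_pow_left₀ (by positivity) hM.le _) (by positivity) hK.le
      refine le_trans (pow_le_pow_of_le_one hx0 hx1.le ?_) hr₂.le
      exact (le_max_right r₁ r₂).trans (Nat.lt_two_pow_self).le

theorem exists_data : ∃ g : ℝ, 0 < g ∧ ∀ ε > 0, Nonempty (Datum β g ε) := by
  obtain ⟨γ, hγ, hγ1, hbase⟩ := exists_gamma
  obtain ⟨L, hL⟩ := exists_pow_lt_of_lt_one
    (show 0 < |B| / A by have := abs_pos.2 B_ne; have := A_pos; positivity) beta_inv_lt_one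
  have hL' : A * β⁻¹ ^ L ≤ |B| := by
    rw [lt_div_iff₀ A_pos] at hL; linarith
  obtain ⟨s, hs⟩ := exists_start hγ hγ1 hbase L
  refine ⟨γ / 4, by positivity, fun ε hε => ?_⟩
  have hκ : 0 < κ γ := Real.exp_pos _
  have hκ1 : κ γ ≤ 1 := Real.exp_le_one_iff.2 (by have : 0 ≤ 2352 / γ := by positivity
                                                  linarith)
  have hV : 0 < s.V L := Finset.prod_pos fun j _ => by
    have := hs.pt j
    have := norm_nonneg s.C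
    linarith
  set w := κ γ * s.V L with hw
  have hw0 : 0 < w := by positivity
  obtain ⟨r, hr⟩ := exists_exponent (x := 7 * ‖s.C‖) (w := w ^ 4) (K := ε / 700)
    (by positivity) (by linarith [hs.c_le]) (by positivity) (by positivity)
  obtain ⟨t, ht, h1, h2⟩ := tower hγ hγ1 hL' hs r
  obtain ⟨t', ht', -, h4, h5⟩ := step hγ hγ1 hL' ht
  have hVle : ∀ t : St, t.V L ≤ 1 := fun t =>
    Finset.prod_le_one (fun _ _ => abs_nonneg _) (fun _ _ => abs_cs_le _)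
  have hV' : w ^ 2 ^ r * w ^ 2 ^ r ≤ t'.V L := by
    have hVt : 0 ≤ t.V L := Finset.prod_nonneg fun _ _ => abs_nonneg _
    calc w ^ 2 ^ r * w ^ 2 ^ r ≤ (κ γ * t.V L) * (κ γ * t.V L) := by gcongr
      _ = κ γ * (κ γ * t.V L ^ 2) := by ring
      _ ≤ 1 * t'.V L := by gcongr
      _ = t'.V L := one_mul _
  have hcond : ‖t'.C‖ * ((t'.hi L : ℝ) - t'.lo L + 2) ≤ ε * t'.V L ^ 2 := by
    have h6 : ((t'.hi L : ℝ) - t'.lo L + 2) ≤ 7 * t'.P := by
      have h : ((3 * t'.S + 2 * L + 2 : ℕ) : ℝ) ≤ ((7 * t'.P : ℕ) : ℝ) := by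
        exact_mod_cast ht'.D_le
      simp only [St.hi, St.lo]; push_cast at h ⊢; linarith
    calc ‖t'.C‖ * ((t'.hi L : ℝ) - t'.lo L + 2) ≤ ‖t'.C‖ * (7 * t'.P) := by gcongr
      _ ≤ 700 * ‖t.C‖ := by linarith
      _ ≤ 700 * ((7 * ‖s.C‖) ^ 3 ^ r) := by linarith [norm_nonneg t.C]
      _ ≤ 700 * (ε / 700 * (w ^ 4) ^ 2 ^ r) := by gcongr
      _ = ε * ((w ^ 2 ^ r * w ^ 2 ^ r) ^ 2) := by
        rw [← pow_mul, mul_comm 4, pow_mul]; ring
      _ ≤ ε * t'.V L ^ 2 := by gcongr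
  have hprod : (∏ j ∈ Finset.Icc (t'.lo L) (t'.hi L), cs (t'.a * β ^ j)) ^ 2 = t'.V L ^ 2 := by
    rw [St.V, ← Finset.abs_prod, sq_abs]
  refine ⟨⟨t'.a, t'.lo L, t'.hi L, ‖t'.C‖, ht'.one_le_a, ht'.c_pos, ?_, ?_, ?_, ?_, ?_, ?_, ?_,
    by rwa [hprod]⟩⟩
  · have h7 : (2:ℝ) ≤ (t'.hi L : ℝ) - t'.lo L + 2 := by
      have : t'.lo L ≤ t'.hi L := by simp only [St.lo, St.hi]; omega
      have : (t'.lo L : ℝ) ≤ t'.hi L := by exact_mod_cast this
      linarith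
    have h8 : t'.V L ^ 2 ≤ 1 :=
      pow_le_one₀ (Finset.prod_nonneg fun _ _ => abs_nonneg _) (hVle _)
    nlinarith [norm_nonneg t'.C]
  · simp only [St.lo]; omega
  · simp only [St.hi]; omega
  · exact fun j hj => ht'.outside hL' j (Or.inr hj)
  · exact fun j _ => ht'.tail hL' j
  · intro j _
    have := ht'.pt j
    have := norm_nonneg t'.C
    linarith
  · rw [div_le_iff₀ ht'.c_pos]
    have h9 := ht'.A_small hL'
    have h10 : β⁻¹ ^ (t'.S + L) ≤ ‖t'.C‖ :=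
      le_trans (le_mul_of_one_le_left (by have := beta_pos; positivity) A_bounds.1) h9
    have h11 : β ^ (t'.hi L) = β ^ (t'.S + L) := by
      rw [← zpow_natCast]; congr 1
    rw [h11]
    have hx : β ^ (t'.S + L) * β⁻¹ ^ (t'.S + L) = 1 := by
      rw [← mul_pow, mul_inv_cancel₀ beta_ne, one_pow]
    calc (1:ℝ) = β ^ (t'.S + L) * β⁻¹ ^ (t'.S + L) := hx.symm
      _ ≤ β ^ (t'.S + L) * ‖t'.C‖ := mul_le_mul_of_nonneg_left h10 (by have := beta_pos; positivity)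

end

end Vale.Agent.P105
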